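import Vale.Agent.P354XT.CoreD
import Vale.Agent.P354PE.Elt

/-!
Integrals with product weights, covers by slabs, and comparisons with the slab norms.
-/

open scoped ContDiff
open Set

namespace Vale.Agent.P354PT

open Vale.Agent.P354XT Vale.Agent.P354XI Vale.Agent.P354XI.Ibp

theorem up_half {a b x : ℝ} (h : a < b) (hx : (a + b) / 2 ≤ x) : 1 / 2 ≤ up a b x := by
  have e : Real.smoothTransition (1 / 2) = 1 / 2 := by
    have p := expNegInvGlue.pos_of_pos (show (0 : ℝ) < 1 / 2 by norm_num)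
    rw [Real.smoothTransition, show (1 : ℝ) - 1 / 2 = 1 / 2 by norm_num]
    field_simp
    norm_num
  rw [← e]
  exact Real.smoothTransition.monotone ((le_div_iff₀ (by linarith)).2 (by linarith))

theorem dn_half {a b x : ℝ} (h : a < b) (hx : x ≤ (a + b) / 2) : 1 / 2 ≤ dn a b x := by
  have e : Real.smoothTransition (1 / 2) = 1 / 2 := by
    have p := expNegInvGlue.pos_of_pos (show (0 : ℝ) < 1 / 2 by norm_num)
    rw [Real.smoothTransition, show (1 : ℝ) - 1 / 2 = 1 / 2 by norm_num]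
    field_simp
    norm_num
  have : up a b x ≤ Real.smoothTransition (1 / 2) :=
    Real.smoothTransition.monotone ((div_le_iff₀ (by linarith)).2 (by linarith))
  rw [dn]; linarith

/-- A bump which is 1 on [b, c] and 0 outside of [a, d]. -/
noncomputable def bu (a b c d x : ℝ) : ℝ := up a b x * dn c d x

theorem bu_sm (a b c d : ℝ) : ContDiff ℝ ∞ (bu a b c d) := (up_sm a b).mul (dn_sm c d)
theorem bu_nonneg (a b c d x : ℝ) : 0 ≤ bu a b c d x :=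
  mul_nonneg (up_nonneg _ _ _) (dn_nonneg _ _ _)
theorem bu_le (a b c d x : ℝ) : bu a b c d x ≤ 1 :=
  mul_le_one₀ (up_le _ _ _) (dn_nonneg _ _ _) (dn_le _ _ _)
theorem bu_one {a b c d x : ℝ} (h : a < b) (k : c < d) (hx : x ∈ Icc b c) : bu a b c d x = 1 := by
  rw [bu, up_one h hx.1, dn_one k hx.2, one_mul]
theorem bu_out {a b c d x : ℝ} (h : a < b) (k : c < d) (hx : x ∉ Icc a d) : bu a b c d x = 0 := by
  rcases not_and_or.1 hx with q | q
  · rw [bu, up_zero h (not_le.1 q).le, zero_mul]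
  · rw [bu, dn_zero k (not_le.1 q).le, mul_zero]
theorem bu_mem {a b c d x : ℝ} (h : a < b) (k : c < d) (hx : bu a b c d x ≠ 0) : x ∈ Icc a d :=
  by_contra fun q => hx (bu_out h k q)

/-- Smooth functions with a bounded derivative. -/
theorem der_bd {g : ℝ → ℝ} (hg : ContDiff ℝ ∞ g) {a b p q : ℝ} (h1 : ∀ t, t ≤ a → g t = p)
    (h2 : ∀ t, b ≤ t → g t = q) : ∃ K, 1 ≤ K ∧ ∀ t, |deriv g t| ≤ K := by
  obtain ⟨K, hK⟩ := (Fld.sm_der hg).continuous.bounded_above_of_compact_support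
    (HasCompactSupport.intro isCompact_Icc (der_out h1 h2))
  exact ⟨max 1 K, le_max_left _ _, fun t => le_max_of_le_right (hK t)⟩

variable {A : Type} [CommRing A] [Algebra ℂ A]

/-- The integral with a product weight. -/
noncomputable def Iw (Φ : Fld A) (e c : ℝ → ℝ) (F : A) : ℝ := Φ.B.J (Φ.tm e * Φ.rad c * F)

/-- The sum of the slab weights. -/
noncomputable def Z (t1 : ℝ) (s : Finset ℕ) (t : ℝ) : ℝ := ∑ j ∈ s, bp (t - t1 - j)

theorem bp_sh (t1 : ℝ) (j : ℕ) : ContDiff ℝ ∞ fun t => bp (t - t1 - j) :=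
  bp_sm.comp ((contDiff_id.sub contDiff_const).sub contDiff_const)

theorem Z_sm (t1 : ℝ) (s : Finset ℕ) : ContDiff ℝ ∞ (Z t1 s) := ContDiff.sum fun j _ => bp_sh _ j

theorem Z_one {t1 t : ℝ} {p q : ℕ} (h1 : t1 + p + 1 ≤ t) (h2 : t ≤ t1 + q) :
    Z t1 (Finset.Ico p q) t = 1 :=
  bp_one (by exact_mod_cast (by linarith : (p : ℝ) ≤ q)) (by linarith) (by linarith)

/-- Weights in the time and in the radius which fit into the box. -/
structure Te (D : Dat A) (e : ℝ → ℝ) : Prop where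
  sm : ContDiff ℝ ∞ e
  pos : ∀ t, 0 ≤ e t
  out : ∀ t, t ∉ Icc D.t1 (D.t1 + D.K + 2) → e t = 0

structure Ra (D : Dat A) (R1 : ℝ) (c : ℝ → ℝ) : Prop where
  sm : ContDiff ℝ ∞ c
  pos : ∀ r, 0 ≤ c r
  out : ∀ r, r ∉ Icc D.r00 (4 * R1) → c r = 0

/-- The box. -/
def Bx (D : Dat A) (R1 : ℝ) : Set (ℝ × ℝ) := Icc D.t1 (D.t1 + D.K + 2) ×ˢ Icc D.r00 (4 * R1)

section
omit [CommRing A] [Algebra ℂ A]
variable {D : Dat A} {R1 : ℝ} {e c c' : ℝ → ℝ}

theorem te_bp {j : ℕ} (hj : j ≤ D.K) : Te D fun t => bp (t - D.t1 - j) :=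
  ⟨bp_sh _ j, fun _ => bp_nonneg _, fun t ht => bp_out fun q => ht (by
    have : (j : ℝ) ≤ D.K := by exact_mod_cast hj
    exact ⟨by linarith [q.1, Nat.cast_nonneg (α := ℝ) j], by linarith [q.2]⟩)⟩

theorem te_Z {s : Finset ℕ} (hs : ∀ j ∈ s, j ≤ D.K) : Te D (Z D.t1 s) :=
  ⟨Z_sm _ _, fun _ => Finset.sum_nonneg fun _ _ => bp_nonneg _,
    fun t ht => Finset.sum_eq_zero fun j hj => (te_bp (hs j hj)).out t ht⟩

theorem Te.sq (h : ContDiff ℝ ∞ e) (o : ∀ t, e t ≠ 0 → t ∈ Icc D.t1 (D.t1 + D.K + 2)) :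
    Te D fun t => e t ^ 2 :=
  ⟨h.pow 2, fun _ => sq_nonneg _, fun t ht => by
    rw [by_contra fun q => ht (o t q), zero_pow two_ne_zero]⟩

theorem Ra.sq (h : ContDiff ℝ ∞ c) (o : ∀ r, c r ≠ 0 → r ∈ Icc D.r00 (4 * R1)) :
    Ra D R1 fun r => c r ^ 2 :=
  ⟨h.pow 2, fun _ => sq_nonneg _, fun t ht => by
    rw [by_contra fun q => ht (o t q), zero_pow two_ne_zero]⟩

theorem Ra.add (h : Ra D R1 c) (k : Ra D R1 c') : Ra D R1 fun r => c r + c' r :=
  ⟨h.sm.add k.sm, fun r => add_nonneg (h.pos r) (k.pos r), fun r hr => by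
    rw [h.out r hr, k.out r hr, add_zero]⟩

end

variable {Φ : Fld A} {D : Dat A} {R1 : ℝ} {e e' c c' : ℝ → ℝ} {F F' : A}

theorem Iw_add (F F' : A) : Iw Φ e c (F + F') = Iw Φ e c F + Iw Φ e c F' := by
  rw [Iw, mul_add, J_add]; rfl

theorem Iw_rl (t : ℝ) (F : A) : Iw Φ e c (rl A t * F) = t * Iw Φ e c F := by
  rw [Iw, mul_left_comm, J_rl]; rfl

section
variable (h : Φ.Is)
include h

theorem Iw_c (hc : ContDiff ℝ ∞ c) (hc' : ContDiff ℝ ∞ c') :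
    Iw Φ e (fun r => c r + c' r) F = Iw Φ e c F + Iw Φ e c' F := by
  rw [Iw, h.rad_add hc hc', mul_add, add_mul, J_add]; rfl

theorem Iw_Z (s : Finset ℕ) : Iw Φ (Z D.t1 s) c F = ∑ j ∈ s, D.sl Φ j c F := by
  have e : Φ.tm (Z D.t1 s) = ∑ j ∈ s, Φ.tm fun t => bp (t - D.t1 - j) := by
    induction s using Finset.induction_on with
    | empty => exact (h.tm_cst 0).trans rl_zero
    | insert j s hj ih =>
      rw [Finset.sum_insert hj, ← ih, ← h.tm_add (bp_sh _ j) (Z_sm _ s)]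
      exact congrArg _ (funext fun t => Finset.sum_insert hj)
  rw [Iw, e, Finset.sum_mul, Finset.sum_mul, J_sum]
  rfl

variable (hb : Bx D R1 ⊆ Φ.Om)
include hb

theorem wK (he : Te D e) (hc : Ra D R1 c) (F : A) : Φ.tm e * Φ.rad c * F ∈ Φ.B.K :=
  Φ.B.K.mul_mem_right _ (h.memK he.sm hc.sm hb he.out hc.out)

theorem Iw_le (he : Te D e) (hc : Ra D R1 c) (he' : Te D e') (hc' : Ra D R1 c')
    (k : ∀ x, Φ.pr x ∈ Bx D R1 → e (Φ.pr x).1 * c (Φ.pr x).2 * Φ.B.val x F ≤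
      e' (Φ.pr x).1 * c' (Φ.pr x).2 * Φ.B.val x F') : Iw Φ e c F ≤ Iw Φ e' c' F' :=
  h.B.J_le (wK h hb he hc F) (wK h hb he' hc' F') fun x => by
    rw [h.val_w he.sm hc.sm, h.val_w he'.sm hc'.sm]
    by_cases q : Φ.pr x ∈ Bx D R1
    · exact k x q
    · rcases not_and_or.1 q with q | q
      · rw [he.out _ q, he'.out _ q]; simp
      · rw [hc.out _ q, hc'.out _ q]; simp

theorem Iw_F (he : Te D e) (hc : Ra D R1 c)
    (k : ∀ x, Φ.pr x ∈ Bx D R1 → Φ.B.val x F ≤ Φ.B.val x F') : Iw Φ e c F ≤ Iw Φ e c F' :=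
  Iw_le h hb he hc he hc fun x hx =>
    mul_le_mul_of_nonneg_left (k x hx) (mul_nonneg (he.pos _) (hc.pos _))

theorem Iw_w (he : Te D e) (hc : Ra D R1 c) (he' : Te D e') (hc' : Ra D R1 c')
    (p : ∀ x, 0 ≤ Φ.B.val x F) (k : ∀ t r, e t * c r ≤ e' t * c' r) : Iw Φ e c F ≤ Iw Φ e' c' F :=
  Iw_le h hb he hc he' hc' fun x _ => mul_le_mul_of_nonneg_right (k _ _) (p x)

theorem Iw_nonneg (he : Te D e) (hc : Ra D R1 c) (p : ∀ x, 0 ≤ Φ.B.val x F) : 0 ≤ Iw Φ e c F := by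
  have := Iw_F h hb he hc (F := 0) (F' := F) fun x _ => by rw [val_zero]; exact p x
  rwa [Iw, mul_zero, J_zero] at this

/-- Majorants. -/
theorem mj (he : Te D e) (hc : Ra D R1 c) (p : ∀ x, 0 ≤ Φ.B.val x F) {C : ℝ} (C0 : 0 ≤ C)
    {U : Set (ℝ × ℝ)} {q : Φ.B.Pt → ℝ} (k : ∀ x, Φ.pr x ∈ U →
      q x ≤ C * (e (Φ.pr x).1 * c (Φ.pr x).2 * Φ.B.val x F)) :
    Mj Φ (rl A C * (Φ.tm e * Φ.rad c * F)) U q :=
  ⟨Φ.B.K.mul_mem_left _ (wK h hb he hc F), fun x => by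
    rw [h.B.val_mul (h.B.re_rl _), h.B.val_rl, h.val_w he.sm hc.sm]
    exact mul_nonneg C0 (mul_nonneg (mul_nonneg (he.pos _) (hc.pos _)) (p x)), fun x hx => by
    rw [h.B.val_mul (h.B.re_rl _), h.B.val_rl, h.val_w he.sm hc.sm]; exact k x hx⟩

end

/-- The level m with the errors. -/
def tp (Φ : Fld A) (D : Dat A) (m : ℕ) : A := Φ.lv m D.f + D.rho

section fam
variable {M a Cf rm rI R0 eps : ℝ} {n k : ℕ} (h : Φ.Is) (H : Fam Φ D M a n k Cf rm rI R0 R1 eps)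
include H

theorem Fam.mono {R0' eps' : ℝ} (e1 : R0' ≤ R0) (e2 : eps ≤ eps') :
    Fam Φ D M a n k Cf rm rI R0' R1 eps' :=
  have s : ∀ {p : ℝ × ℝ}, p ∈ Icc D.t1 (D.t1 + D.K + 2) ×ˢ Icc D.r00 (3 * R0') →
      p ∈ Icc D.t1 (D.t1 + D.K + 2) ×ˢ Icc D.r00 (3 * R0) :=
    fun q => ⟨q.1, q.2.1, q.2.2.trans (by linarith)⟩
  { H with
    hpos := fun j => ⟨(H.hpos j).1, (H.hpos j).2.trans e2⟩
    swap := fun x q => H.swap x (s q)
    eqA := fun x q => H.eqA x (s q)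
    eqR := fun x q => H.eqR x (s q) }

theorem r00_lt : D.r00 < rI := not_le.1 fun q =>
  zero_ne_one ((H.ch0 _ q).symm.trans (H.ch1 _ le_rfl))

theorem ch_mem (r : ℝ) : 0 ≤ D.ch r ∧ D.ch r ≤ 1 :=
  ⟨(H.ch0 _ (min_le_right r D.r00)).ge.trans (H.chm (min_le_left _ _)),
    (H.chm (le_max_left r rI)).trans (H.ch1 _ (le_max_right _ _)).le⟩

theorem ra_ch {g : ℝ → ℝ} (hg : ContDiff ℝ ∞ g) (p : ∀ r, 0 ≤ g r) (o : ∀ r, 4 * R1 ≤ r → g r = 0) :
    Ra D R1 fun r => D.ch r * g r :=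
  ⟨H.chs.mul hg, fun r => mul_nonneg (ch_mem H r).1 (p r), fun r hr => by
    rcases not_and_or.1 hr with q | q
    · rw [H.ch0 _ (not_le.1 q).le, zero_mul]
    · rw [o _ (not_le.1 q).le, mul_zero]⟩

theorem ra_wf (R : 0 < R1) : Ra D R1 (D.wf R1) :=
  ra_ch H (dn_sm _ _) (dn_nonneg _ _) fun _ => dn_zero (by linarith)

theorem wf_one (R : 0 < R1) {r : ℝ} (hr : r ∈ Icc rI (3 * R1)) : D.wf R1 r = 1 := by
  rw [Dat.wf, H.ch1 _ hr.1, dn_one (by linarith) hr.2, one_mul]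

include h

theorem tp_nonneg (m : ℕ) (x : Φ.B.Pt) : 0 ≤ Φ.B.val x (tp Φ D m) := by
  rw [tp, val_add]; exact add_nonneg (h.lv_nonneg _ _ _) (H.rpos x)

/-- Honest jets of a member of the family. -/
theorem jq_le {x : Φ.B.Pt} (hx : Φ.pr x ∈ Bx D R1) {i : ℕ} (hi : i ≤ n + 1) {W : List (Fin 5)}
    (hW : i + W.length ≤ n + k + 1) :
    Φ.B.val x (Φ.jq i (D.f W)) ≤ 2 * nw (n + 1) * Φ.B.val x (tp Φ D (i + W.length)) := by
  have b : Φ.Bd x i (D.f W) √(2 * Φ.B.val x (tp Φ D (i + W.length))) := fun J hJ =>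
    Real.le_sqrt_of_sq_le (by
      rw [tp, val_add]
      linarith [P354PE.sq_split x (Φ.wd J (D.f W)) (D.f (J ++ W)),
        H.hon x hx J W (by omega) (by omega),
        h.le_lv x D.f (J := J ++ W) (m := i + W.length) (by simp; omega)])
  have p := tp_nonneg h H (i + W.length) x
  have q : nw i ≤ nw (n + 1) := Nat.cast_le.2 (Finset.card_le_card (words_mono hi))
  refine (b.jq h).trans ?_
  rw [Real.sq_sqrt (by linarith)]
  nlinarith

/-- The jets of a member of the family and of a word of another member. -/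
theorem jq_split {x : Φ.B.Pt} (hx : Φ.pr x ∈ Bx D R1) {V W : List (Fin 5)} (hV : V.length ≤ n)
    (hW : V.length + W.length ≤ n + k) : Φ.B.val x (Φ.jq 1 (D.f (V ++ W))) ≤
      2 * Φ.B.val x (Φ.jq 1 (Φ.wd V (D.f W))) + 8 * nw 1 * Φ.B.val x D.rho := by
  rw [Fld.jq, Fld.jq, h.val_lv, h.val_lv, Finset.mul_sum, mul_comm 8, mul_assoc, nw,
    ← nsmul_eq_mul, ← Finset.sum_const, ← Finset.sum_add_distrib]
  refine Finset.sum_le_sum fun J hJ => ?_
  have l := mem_words.1 hJ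
  have a1 := H.hon x hx J (V ++ W) (by omega) (by simp; omega)
  have a2 := H.hon x hx (J ++ V) W (by simp; omega) (by simp; omega)
  rw [Fld.wd_append, List.append_assoc] at a2
  have a3 := P354PE.sq_split x (Φ.wd J (D.f (V ++ W))) (Φ.wd J (Φ.wd V (D.f W)))
  have a4 := P354PE.sq_split x (Φ.wd J (D.f (V ++ W)) - Φ.wd J (Φ.wd V (D.f W)))
    (Φ.wd J (D.f (V ++ W)) - D.f (J ++ (V ++ W)))
  rw [sub_sub_sub_cancel_left, ← md_neg x (D.f _ - _), neg_sub] at a4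
  linarith

end fam

end Vale.Agent.P354PT
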