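import Vale.Agent.P354PT.Asm
import Vale.Agent.P354XT.Core
import Vale.Agent.P354PH.Ok

/-!
The estimate of top order from the estimates for modes.
-/

namespace Vale.Agent.P354PT

open Vale.Agent.P354XT

theorem topt (σ : Bool) (h : MODE σ) : TOPT σ := asm σ (core h) (P354PH.phys_ok σ)

end Vale.Agent.P354PT
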