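import Vale.Agent.P354PT.Step

/-!
The estimate of top order from the estimate for one field and the estimates in physical space.
-/

open scoped ContDiff
open Set

namespace Vale.Agent.P354PT

open Vale.Agent.P354XT Vale.Agent.P354XI Vale.Agent.P354XI.Ibp
open Vale.Agent.P354BF (rp)

theorem small {x t : ℝ} (x0 : 0 ≤ x) (t0 : 0 < t) : ∃ y, 0 < y ∧ x * y ≤ t :=
  ⟨t / (x + 1), by positivity, by
    rw [← mul_div_assoc, div_le_iff₀ (by linarith)]; linarith⟩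

theorem num {E X F B G S O T Y I1 I2 P a b c0 γ η e Ca uc vc wc zc ua va wa za δ τ ε : ℝ}
    (k1 : 4 * |P| * a * uc ≤ 1 / 8) (k2 : 4 * |P| * a * vc ≤ ε / 8)
    (k3 : 4 * |P| * a * (c0 * γ) * η * ua ≤ 1 / 8) (k4 : 4 * |P| * a * (c0 * γ) * η * va ≤ ε / 8)
    (k5 : 4 * |P| * a * (wc + c0 * γ * (e + η * wa)) * δ ≤ min (1 / 4) (ε / 4))
    (E0 : 0 ≤ E) (X0 : 0 ≤ X) (F0 : 0 ≤ F) (B0 : 0 ≤ B) (O0 : 0 ≤ O) (T0 : 0 ≤ T) (Y0 : 0 ≤ Y)
    (a0 : 0 ≤ a) (β0 : 0 ≤ c0 * γ) (η0 : 0 ≤ η) (e0 : 0 ≤ e) (w0 : 0 ≤ wc) (w1 : 0 ≤ wa)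
    (ε0 : 0 ≤ ε) (h1 : E + X ≤ P * (Y + T))
    (h2 : Y ≤ a * (4 * (c0 * (γ * I1) + (uc * X + vc * F + wc * (S + O) + zc * T)) + b * T))
    (h3 : I1 ≤ η * I2 + e * S) (h4 : I2 ≤ Ca * G + (ua * X + va * F + wa * (S + O) + za * T))
    (h5 : S + O ≤ δ * (X + (F + B)) + τ * T) :
    E + X ≤ 8 * |P| * a * (c0 * γ) * η * Ca * G + ε * (F + B) +
      2 * (|P| * (1 + a * b) + 4 * |P| * a * (zc + c0 * γ * η * za) +
        4 * |P| * a * (wc + c0 * γ * (e + η * wa)) * τ) * T := by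
  have p1 := h1.trans (mul_le_mul_of_nonneg_right (le_abs_self P) (add_nonneg Y0 T0))
  have P0 := abs_nonneg P
  generalize |P| = Q at *
  have p2 := mul_le_mul_of_nonneg_left h2 P0
  have p3 := mul_le_mul_of_nonneg_left (h3.trans (add_le_add (mul_le_mul_of_nonneg_left h4 η0)
    (mul_le_mul_of_nonneg_left (le_add_of_nonneg_right O0) e0)))
    (show 0 ≤ 4 * Q * a * (c0 * γ) by positivity)
  have p5 := mul_le_mul_of_nonneg_left h5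
    (show 0 ≤ 4 * Q * a * (wc + c0 * γ * (e + η * wa)) by positivity)
  linarith [mul_le_mul_of_nonneg_right k1 X0, mul_le_mul_of_nonneg_right k2 F0,
    mul_le_mul_of_nonneg_right k3 X0, mul_le_mul_of_nonneg_right k4 F0,
    mul_le_mul_of_nonneg_right (k5.trans (min_le_left _ _)) X0,
    mul_le_mul_of_nonneg_right (k5.trans (min_le_right _ _)) (add_nonneg F0 B0), mul_nonneg ε0 B0,
    mul_nonneg ε0 F0]

variable {A : Type} [CommRing A] [Algebra ℂ A] {g θ : ℝ → ℝ} {c : ℝ}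

theorem wg_B (r : Ramp g θ c) (t1 s : ℝ) :
    Wg (fun t => c⁻¹ * eta g t1 s t ^ 2) t1 s (Icc (t1 + 2) (s - 1 / 4)) :=
  ⟨contDiff_const.mul (((cu_eta r one_pos).choose_spec.2.2 _ _).sm.pow 2),
    fun _ => mul_nonneg (inv_pos.2 r.pos).le (sq_nonneg _), fun t q => by
      rw [by_contra fun u => q ⟨by linarith [(eta_mem r u).1], (eta_mem r u).2⟩,
        zero_pow two_ne_zero, mul_zero], fun t q => by
      rw [eta, up_one (by norm_num) (by linarith [q.1]), one_mul, one_le_inv_mul₀ r.pos]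
      exact r.lg _ (by linarith [q.2])⟩

theorem wg_E (r : Ramp g θ c) {t1 s : ℝ} (h : t1 + 1 ≤ s) :
    Wg (fun t => c⁻¹ * θ (t - s) ^ 2) t1 s (Icc (s - 3 / 4) (s - 1 / 4)) :=
  ⟨contDiff_const.mul ((sm_sh r.st _).pow 2),
    fun _ => mul_nonneg (inv_pos.2 r.pos).le (sq_nonneg _), fun t q => by
      rw [r.out _ fun u => q ⟨by linarith [u.1], by linarith [u.2]⟩, zero_pow two_ne_zero, mul_zero],
    fun t q => by
      rw [one_le_inv_mul₀ r.pos]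
      exact r.lt _ ⟨by linarith [q.1], by linarith [q.2]⟩⟩

namespace St
variable {Φ : Fld A} {D : Dat A} {ρ : Rd} {M a Cf rm : ℝ} {n k κ : ℕ}
  (S : St Φ D ρ M a Cf rm n k κ)
include S

theorem yq_nonneg (m : ℕ) {e c : ℝ → ℝ} {x : ℝ} {U V : Set ℝ} (he : Wg e D.t1 (D.t1 + κ) U)
    (hc : Wg c x (3 * ρ.R0) V) (i : ρ.rI ≤ x) : 0 ≤ D.yq Φ m e c :=
  have k5 : (κ : ℝ) ≤ D.K := by exact_mod_cast S.κK
  Finset.sum_nonneg fun _ _ => Iw_nonneg S.is S.fam.box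
    ⟨he.sm, he.pos, fun t q => he.out t fun u => q ⟨u.1, by linarith [u.2]⟩⟩
    ⟨hc.sm, hc.pos, fun t q => hc.out t fun u => q ⟨by linarith [u.1, r00_lt S.fam],
      by linarith [u.2, S.ok.i, S.ok.j]⟩⟩ fun _ => S.is.jq_nonneg

theorem lt_K {j : ℕ} (hj : j ∈ Finset.range (κ + 1)) : j ≤ D.K :=
  (Nat.lt_succ_iff.1 (Finset.mem_range.1 hj)).trans S.κK

theorem pos (m : ℕ) : 0 ≤ D.En Φ m ρ.R0 κ ∧
    0 ≤ ∑ j ∈ Finset.range (κ + 1), D.bk Φ m ρ.p1 ρ.p2 ρ.p3 ρ.p4 ρ.R0 j ∧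
    0 ≤ ∑ j ∈ Finset.Icc (κ - 3) κ, D.Ef Φ m ρ.R1 j ∧
    0 ≤ ∑ j ∈ Finset.range (κ + 1), D.Bf Φ m ρ.R0 ρ.R1 j :=
  ⟨S.sl_nonneg S.rn (S.is.lv_nonneg · _ _) S.κK, Finset.sum_nonneg fun _ hj => add_nonneg
      (S.sl_nonneg S.rb (S.is.lv_nonneg · _ _) (S.lt_K hj))
      (S.sl_nonneg S.rn (S.is.lv_nonneg · _ _) (S.lt_K hj)),
    Finset.sum_nonneg fun _ hj => S.sl_nonneg S.rf (S.is.lv_nonneg · _ _)
      ((Finset.mem_Icc.1 hj).2.trans S.κK),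
    Finset.sum_nonneg fun _ hj => S.sl_nonneg S.rB (S.is.lv_nonneg · _ _) (S.lt_K hj)⟩

theorem gd_pos (σ : Bool) (γ : ℝ) :
    0 ≤ ∑ j ∈ Finset.range (κ + 1), D.GdT Φ σ n k M a γ ρ.R1 j :=
  have R := S.R1
  Finset.sum_nonneg fun _ hj => S.sl_nonneg (S.ra_bu (show ρ.R1 / 2 < ρ.R1 by linarith)
    (show 2 * ρ.R1 < 3 * ρ.R1 by linarith) (by linarith [S.rI_le, S.ok.i, S.ok.j]) (by linarith))
    (gd_nonneg S.is σ n M a γ R.le _) (S.lt_K hj)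

/-- Short times. -/
theorem short (k2 : κ ≤ 2) (m : ℕ) : D.En Φ m ρ.R0 κ +
    ∑ j ∈ Finset.range (κ + 1), D.bk Φ m ρ.p1 ρ.p2 ρ.p3 ρ.p4 ρ.R0 j ≤ 3 * D.rest Φ m ρ.R1 κ := by
  have w : ∀ {c} (_ : Ra D ρ.R1 c) (_ : ∀ r, c r ≤ D.wf ρ.R1 r) i, i ≤ m + 1 → ∀ j ≤ D.K,
      D.sl Φ j c (Φ.lv i D.f) ≤ D.Ef Φ m ρ.R1 j := fun hc l i hi j hj =>
    Iw_le S.is S.fam.box (te_bp hj) hc (te_bp hj) S.rf fun x _ => mul_le_mul
      (mul_le_mul_of_nonneg_left (l _) (bp_nonneg _)) (S.is.lv_mono x hi _) (S.is.lv_nonneg x _ _)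
      (mul_nonneg (bp_nonneg _) (S.rf.pos _))
  have p : ∀ j ∈ Finset.range 3, 0 ≤ D.Ef Φ m ρ.R1 j := fun j hj => S.sl_nonneg S.rf
    (S.is.lv_nonneg · _ _) ((Nat.lt_succ_iff.1 (Finset.mem_range.1 hj)).trans S.fam.K2)
  have a1 := (w S.rn S.wn_le _ le_rfl κ S.κK).trans
    (Finset.single_le_sum p (Finset.mem_range.2 (by omega)))
  have a2 : ∑ j ∈ Finset.range (κ + 1), D.bk Φ m ρ.p1 ρ.p2 ρ.p3 ρ.p4 ρ.R0 j ≤
      ∑ j ∈ Finset.range (κ + 1), (D.Ef Φ m ρ.R1 j + D.Ef Φ m ρ.R1 j) :=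
    Finset.sum_le_sum fun j hj => add_le_add (w S.rb S.wb_le _ le_rfl j (S.lt_K hj))
      (w S.rn S.wn_le _ m.le_succ j (S.lt_K hj))
  have a3 := Finset.sum_le_sum_of_subset_of_nonneg (Finset.range_mono (show κ + 1 ≤ 3 by omega))
    fun j hj _ => p j hj
  rw [Finset.sum_add_distrib] at a2
  rw [Dat.En]
  linarith [(S.rest_ge m).1]

end St

theorem asm (σ : Bool) (hC : CORE σ) (hP : PHYS σ) : TOPT σ := by
  intro M0 a0 rm h0 ha f hf γ g0 g1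
  obtain ⟨g, θ, c, r⟩ := ramp
  obtain ⟨n, rb, q1, q2, q3, q4, Rc, n4, b1, b2, b3, b4, b5, b6, b7, hC⟩ :=
    hC g θ c r M0 a0 rm h0 ha f hf γ g0 g1
  obtain ⟨Rp, hP⟩ := hP M0 a0 rm ha f hf
  have m0 : 0 < M0 := (abs_nonneg a0).trans_lt ha
  have lo := hf.lo
  have a1 := abs_nonneg Rc
  have a2 := abs_nonneg Rp
  have a3 := le_abs_self Rc
  have a4 := le_abs_self Rp
  refine ⟨n, (rb + rp M0 a0) / 2, (2 * q1 + q2) / 3, (q1 + 2 * q2) / 3, (2 * q3 + q4) / 3,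
    (q3 + 2 * q4) / 3, |Rc| + |Rp| + 2 * q4 + 6 * M0 + 1, n4, by linarith, by linarith, by linarith,
    by linarith, by linarith, by linarith, by linarith, fun k Cf R0 hR => ?_⟩
  obtain ⟨rB, c1, hP⟩ := hP n k Cf (by omega)
  obtain ⟨r2, c2, c3, c4⟩ : ∃ r2, rp M0 a0 < r2 ∧ r2 ≤ rB ∧ r2 < q1 :=
    ⟨min rB ((rp M0 a0 + q1) / 2), lt_min c1 (by linarith), min_le_left _ _,
      (min_le_right _ _).trans_lt (by linarith)⟩
  obtain ⟨d, d0, d1, d2⟩ : ∃ d, 0 < d ∧ d ≤ (q2 - q1) / 6 ∧ d ≤ (q4 - q3) / 6 :=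
    ⟨min _ _, lt_min (by linarith) (by linarith), min_le_left _ _, min_le_right _ _⟩
  obtain ⟨P, dP, eP, dP0, eP0, hP⟩ := hP r2 ((rb + rp M0 a0) / 2) ((2 * q1 + q2) / 3)
    ((q1 + 2 * q2) / 3) ((2 * q3 + q4) / 3) ((q3 + 2 * q4) / 3) d R0 c2 c3 (by linarith)
    (by linarith) (by linarith) (by linarith) (by linarith) (by linarith) (by linarith) d0
  have R : 0 < R0 := by linarith
  obtain ⟨CE, dE, eE, CE0, dE0, eE0, hE⟩ := P354PE.elt M0 a0 rm R0 (5 * R0) Cf (sp σ) f n k ha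
    (by linarith) hf.sm.continuous (by omega)
  obtain ⟨Cg, Cg0, hg⟩ := gd_le M0 a0 (3 * R0) (9 * R0) γ (show 0 ≤ 4 * R0 by linarith) σ
    (show 2 ≤ n by omega)
  obtain ⟨K, K1, K2, K3⟩ := cu_eta r R
  obtain ⟨Kθ, hθ⟩ := (r.st.continuous.pow 2).bounded_above_of_compact_support
    (HasCompactSupport.intro (isCompact_Icc (a := -1) (b := 0)) fun x q => by simp [r.out x q])
  have w0 := zero_le_one.trans (cw_ge n)
  have α0 : 0 ≤ c⁻¹ * nw (n + k) := mul_nonneg (inv_pos.2 r.pos).le (zero_le_one.trans (nw_pos _))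
  have α1 : 0 ≤ 4 * |P| * (c⁻¹ * nw (n + k)) := by positivity
  have hC := fun R (h : R0 ≤ R) => hC ((rb + 3 * rp M0 a0) / 4) ((rp M0 a0 + r2) / 2) R
    (by linarith) (by linarith) (by linarith) (by linarith) (by linarith)
  obtain ⟨u1, u1p, k1⟩ := small (mul_nonneg α1 w0) (show (0 : ℝ) < 1 / 8 by norm_num)
  obtain ⟨Cc, Cc0, hc⟩ := hC R0 le_rfl u1 u1p
  have β0 := mul_nonneg Cc0 (mul_nonneg Cg0 w0)
  have α2 := mul_nonneg (mul_nonneg (mul_nonneg α1 β0) (show 0 ≤ 2 * CE by linarith)) w0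
  obtain ⟨u2, u2p, k3⟩ := small α2 (show (0 : ℝ) < 1 / 8 by norm_num)
  obtain ⟨Ca, Ca0, hA⟩ := hC (5 * R0) (by linarith) u2 u2p
  refine ⟨8 * |P| * (c⁻¹ * nw (n + k)) * (Cc * (Cg * cw n)) * (2 * CE) * (4 * Ca),
    fun R1 hR1 ε ε0 => ?_⟩
  obtain ⟨v1, v1p, k2⟩ := small (mul_nonneg α1 w0) (show 0 < ε / 8 by linarith)
  obtain ⟨v2, v2p, k4⟩ := small α2 (show 0 < ε / 8 by linarith)
  obtain ⟨C1, d1', C10, d1p, hc⟩ := hc (4 * R0) le_rfl v1 v1p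
  obtain ⟨C2, d2', C20, d2p, hA⟩ := hA R1 (by linarith) v2 v2p
  let ρ : Rd := ⟨(rb + rp M0 a0) / 2, (rb + 3 * rp M0 a0) / 4, q1, (2 * q1 + q2) / 3,
    (q1 + 2 * q2) / 3, (2 * q3 + q4) / 3, (q3 + 2 * q4) / 3, q4, R0, R1⟩
  have o : ρ.Ok := by constructor <;> simp only [ρ] <;> linarith
  obtain ⟨L, L1, L2, L3, L4⟩ := o.cu
  obtain ⟨Lf, hL⟩ := ((isCompact_Icc (a := M0 - 1) (b := M0 + 1)).prod
    ((isCompact_Icc (a := a0 - 1) (b := a0 + 1)).prod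
      (isCompact_Icc (a := ρ.rI) (b := 3 * R1)))).exists_bound_of_continuousOn
    hf.sm.continuous.continuousOn
  have e0 : 0 ≤ CE * (8 * nw 1 + 4 * K ^ 2) + 1 := by have := nw_pos 1; positivity
  obtain ⟨δ, δ0, k5⟩ := small (x := 4 * |P| * (c⁻¹ * nw (n + k)) * (C1 * cw n + Cc * (Cg * cw n) *
    (CE * (8 * nw 1 + 4 * K ^ 2) + 1 + 2 * CE * (C2 * cw n)))) (by positivity)
    (show 0 < min (1 / 4) (ε / 4) from lt_min (by norm_num) (by linarith))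
  refine ⟨max ?_ 3, min (min 1 dP) (min dE (min d1' d2')), min 1 (min eP eE),
    by positivity, by positivity, fun M a hM hA' A _ _ Φ D is par hs hΦ F κ κK => ?_⟩
  swap
  simp only [lt_min_iff] at hM hA'
  have S : St Φ D ρ M a Cf rm n k κ := ⟨is, o, Fam.mono F le_rfl (min_le_left _ _), by omega, κK⟩
  obtain ⟨E0, X0, F0, B0⟩ := S.pos (n + k)
  have T0 := S.rest_nonneg (n + k)
  have G0 := S.gd_pos σ γ
  rcases le_or_gt κ 2 with k2' | k3'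
  · exact (S.short k2' _).trans (le_add_of_nonneg_of_le (add_nonneg (mul_nonneg (by positivity) G0)
      (mul_nonneg ε0.le (add_nonneg F0 B0))) (mul_le_mul_of_nonneg_right (le_max_right _ _) T0))
  have k4' : (3 : ℝ) ≤ κ := by exact_mod_cast k3'
  refine le_trans ?_ (add_le_add le_rfl (mul_le_mul_of_nonneg_right (le_max_left _ _) T0))
  have z0 : (rp M0 a0 + r2) / 2 < r2 := by linarith
  have z1 : 5 * R0 / 2 < 3 * R0 := by linarith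
  have z2 : (q1 + 2 * q2) / 3 + d < q2 := by linarith
  have z3 : q3 < (2 * q3 + q4) / 3 - d := by linarith
  have w1 := wl_bu z0 z1 le_rfl le_rfl
  have w2 := wl_bu z0 z2 le_rfl le_rfl
  have w3 := wl_bu z3 z1 le_rfl le_rfl
  have y1 : Wg _ (rp M0 a0) (3 * R0) (Icc r2 (5 * R0 / 2)) := ⟨w1.sm, w1.pos,
    fun t q => w1.out t fun u => q ⟨by linarith [u.1], u.2⟩, fun t q => (bu_one z0 z1 q).ge⟩
  have y2 : Wg _ (rp M0 a0) (3 * R0) (Icc r2 ((q1 + 2 * q2) / 3 + d) ∪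
      Icc ((2 * q3 + q4) / 3 - d) (5 * R0 / 2)) := ⟨w2.sm.add w3.sm,
    fun t => add_nonneg (w2.pos t) (w3.pos t), fun t q => by
      rw [w2.out t fun u => q ⟨by linarith [u.1], by linarith [u.2]⟩,
        w3.out t fun u => q ⟨by linarith [u.1], u.2⟩, add_zero],
    fun t q => q.elim (fun u => le_add_of_le_of_nonneg (bu_one z0 z2 u).ge (w3.pos t))
      fun u => le_add_of_nonneg_of_le (w2.pos t) (bu_one z3 z1 u).ge⟩
  have yB := wg_B r D.t1 (D.t1 + κ)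
  have yE := wg_E r (show D.t1 + 1 ≤ D.t1 + κ by linarith)
  have i : ρ.rI ≤ rp M0 a0 := by simp only [ρ]; linarith
  refine num (by linarith) (by linarith) (by linarith) (by linarith) k5 E0 X0 F0 B0
    (Iw_nonneg is S.fam.box (S.tO k3') S.rO (tp_nonneg is S.fam _)) T0
    (add_nonneg (add_nonneg (S.yq_nonneg _ yB y2 i) (S.yq_nonneg _ yB y1 i)) (S.yq_nonneg _ yE y1 i))
    α0 β0 (by linarith) e0 (mul_nonneg C10 w0) (mul_nonneg C20 w0) ε0.le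
    (hP M a R1 hM.1.2 hA'.1.2 (by linarith) A Φ D is hs hΦ (Fam.mono F (by linarith)
      ((min_le_right _ _).trans (min_le_left _ _))) κ k3' κK _ _ _ _ yB yE y1 y2)
    (S.step_c r k3' u1p.le v1p.le C10 Cg0 (fun t => (le_abs_self _).trans (hθ t))
      (i.trans (by linarith)) (i.trans (by linarith)) (show q2 ≤ R0 by linarith)
      (fun x q => hg A Φ M a x ⟨is, hM.1.1.le, hA'.1.1.le, q⟩)
      (hc M a hM.2.2.1 hA'.2.2.1 A Φ is par hs hΦ) w1 w2 w3)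
    (S.step_b r K1 CE0.le K2 (K3 _ _) (hE M a _ R1 _ hM.2.1 hA'.2.1 (i.trans (by linarith))
      (by linarith) ((min_le_right _ _).trans (min_le_right _ _)) A Φ D is hs hΦ F _ le_rfl))
    (S.step_a r k3' u2p.le v2p.le C20 b6.le (hA M a hM.2.2.2 hA'.2.2.2 A Φ is par hs hΦ))
    (S.iS k3' (K := max L Lf) (le_max_of_le_left L1) δ0 (L2.mono (le_max_left _ _))
      (L3.mono (le_max_left _ _)) (fun t s => ⟨(L4 t s).1.mono (le_max_left _ _),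
        (L4 t s).2.mono (le_max_left _ _)⟩) fun x q => le_max_of_le_right ?_)
  rw [hΦ]
  have h1 := abs_lt.1 hM.1.1
  have h2 := abs_lt.1 hA'.1.1
  exact hL (M, a, x) ⟨⟨by linarith, by linarith⟩, ⟨by linarith, by linarith⟩, q⟩

end Vale.Agent.P354PT
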