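import Vale.Agent.P354PT.Wt

/-!
Interpolation between the levels of the family, and the elliptic estimate for product weights.
-/

open scoped ContDiff
open Set

namespace Vale.Agent.P354PT

open Vale.Agent.P354XG (Der D_mul)
open Vale.Agent.P354XT Vale.Agent.P354XI Vale.Agent.P354XI.Ibp

/-- A smooth cut off with the slope at most K. -/
structure Cu (g : ℝ → ℝ) (K : ℝ) : Prop where
  sm : ContDiff ℝ ∞ g
  le : ∀ t, |g t| ≤ 1
  der : ∀ t, |deriv g t| ≤ K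

theorem Cu.mono {g : ℝ → ℝ} {K K' : ℝ} (h : Cu g K) (e : K ≤ K') : Cu g K' :=
  ⟨h.sm, h.le, fun t => (h.der t).trans e⟩

theorem Cu.sh {g : ℝ → ℝ} {K : ℝ} (h : Cu g K) (s : ℝ) : Cu (fun t => g (t - s)) K :=
  ⟨sm_sh h.sm s, fun _ => h.le _, fun t => by rw [der_sh]; exact h.der _⟩

theorem Cu.mul {g g' : ℝ → ℝ} {K K' : ℝ} (h : Cu g K) (k : Cu g' K') :
    Cu (fun t => g t * g' t) (K + K') :=
  ⟨h.sm.mul k.sm, fun t => (P354PE.ab (h.le t) (k.le t)).trans_eq (one_mul 1), fun t => by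
    rw [deriv_fun_mul (h.sm.differentiable (by simp) t) (k.sm.differentiable (by simp) t)]
    linarith [abs_add_le (deriv g t * g' t) (g t * deriv g' t), P354PE.ab (h.der t) (k.le t),
      P354PE.ab (h.le t) (k.der t)]⟩

theorem cu_of {g : ℝ → ℝ} (hg : ContDiff ℝ ∞ g) (l : ∀ t, |g t| ≤ 1) {a b p q : ℝ}
    (h1 : ∀ t, t ≤ a → g t = p) (h2 : ∀ t, b ≤ t → g t = q) : ∃ K, 1 ≤ K ∧ Cu g K :=
  (der_bd hg h1 h2).imp fun _ k => ⟨k.1, hg, l, k.2⟩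

theorem cu_up {a b : ℝ} (h : a < b) : ∃ K, 1 ≤ K ∧ Cu (up a b) K :=
  cu_of (up_sm a b) (fun t => abs_le.2 ⟨by linarith [up_nonneg a b t], up_le a b t⟩)
    (fun _ => up_zero h) fun _ => up_one h

theorem cu_dn {a b : ℝ} (h : a < b) : ∃ K, 1 ≤ K ∧ Cu (dn a b) K :=
  cu_of (dn_sm a b) (fun t => abs_le.2 ⟨by linarith [dn_nonneg a b t], dn_le a b t⟩)
    (fun _ => dn_one h) fun _ => dn_zero h

theorem Cu.sq_le {g : ℝ → ℝ} {K : ℝ} (h : Cu g K) (t : ℝ) : g t ^ 2 ≤ 1 :=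
  (sq_le_one_iff_abs_le_one _).2 (h.le t)

/-- The constant of the interpolation. -/
noncomputable def ci (m : ℕ) (K δ : ℝ) : ℝ := nw m * (32 * nw m / δ + 32 * K ^ 4 + 2) + 1

theorem ci_pos (m : ℕ) (K : ℝ) {δ : ℝ} (d0 : 0 < δ) : 0 ≤ ci m K δ := by
  have := nw_pos m
  unfold ci
  positivity

variable {A : Type} [CommRing A] [Algebra ℂ A] {Φ : Fld A} {D : Dat A}
  {M a Cf rm rI R0 R1 eps K δ : ℝ} {n k m : ℕ} {e c ζ ξ : ℝ → ℝ}

theorem md_Xw (h : Φ.Is) (k1 : 1 ≤ K) (he : Cu e K) (hc : Cu c K) (x : Φ.B.Pt)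
    (hf : |Φ.f (Φ.pr x).2| ≤ K) : ∀ d, Φ.B.md x (Φ.X d (Φ.tm e * Φ.rad c)) ≤ 2 * K ^ 2 := by
  have a1 : Φ.B.md x (Φ.tm e) ≤ 1 := by rw [h.md_tm he.sm]; exact he.le _
  have a2 : Φ.B.md x (Φ.rad c) ≤ 1 := by rw [h.md_rad hc.sm]; exact hc.le _
  have a3 : Φ.B.md x (Φ.tm (deriv e)) ≤ K := by rw [h.md_tm (Fld.sm_der he.sm)]; exact he.der _
  have a4 : Φ.B.md x (Φ.rad (deriv c)) ≤ K := by rw [h.md_rad (Fld.sm_der hc.sm)]; exact hc.der _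
  have a5 : Φ.B.md x (Φ.rad Φ.f) ≤ K := by rwa [h.md_rad h.sf]
  have z : ∀ i, Φ.B.md x (Φ.L i (Φ.tm e * Φ.rad c)) ≤ 2 * K ^ 2 := fun i => by
    rw [D_mul, h.L_tm he.sm, h.L_rad hc.sm, mul_zero, mul_zero, add_zero, md_zero]; positivity
  refine fin5 ?_ ?_ (z 0) (z 1) (z 2)
  · rw [Fld.X0, D_mul, h.T_tm he.sm, h.T_rad hc.sm, mul_zero, zero_add]
    nlinarith [P354PE.mu a2 a3]
  · rw [Fld.X1, D_mul, h.R_tm he.sm, h.R_rad hc.sm, mul_neg, ← sub_eq_add_neg]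
    nlinarith [P354PE.sb (P354PE.mu a1 a4) (P354PE.mu a2 (P354PE.mu a5 a3))]

/-- Interpolation. -/
theorem int_le (h : Φ.Is) (H : Fam Φ D M a n k Cf rm rI R0 R1 eps) (n1 : 1 ≤ n) (m1 : 1 ≤ m)
    (hm : m ≤ n + k) (k1 : 1 ≤ K) (d0 : 0 < δ) (he : Cu e K) (hc : Cu c K)
    (hf : ∀ r, c r ≠ 0 → |Φ.f r| ≤ K) (hζ : Te D ζ) (hξ : Ra D R1 ξ) (e1 : ∀ t, e t ≠ 0 → 1 ≤ ζ t)
    (c1 : ∀ r, c r ≠ 0 → 1 ≤ ξ r) :
    Iw Φ (fun t => e t ^ 2) (fun r => c r ^ 2) (tp Φ D m) ≤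
      δ * Iw Φ (fun t => e t ^ 2) (fun r => c r ^ 2) (tp Φ D (m + 1)) +
        ci m K δ * Iw Φ ζ ξ (tp Φ D (m - 1)) := by
  have te : Te D fun t => e t ^ 2 := Te.sq he.sm fun t q => by_contra fun q' => by
    linarith [e1 t q, hζ.out t q']
  have rc : Ra D R1 fun r => c r ^ 2 := Ra.sq hc.sm fun t q => by_contra fun q' => by
    linarith [c1 t q, hξ.out t q']
  have le : ∀ t r, e t ^ 2 * c r ^ 2 ≤ ζ t * ξ r := fun t r => by
    by_cases q : e t = 0 ∨ c r = 0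
    · rcases q with q | q <;> rw [q] <;> simpa using mul_nonneg (hζ.pos t) (hξ.pos r)
    · exact (mul_le_one₀ (he.sq_le t) (sq_nonneg _) (hc.sq_le r)).trans
        (one_le_mul_of_one_le_of_one_le (e1 t fun z => q (.inl z)) (c1 r fun z => q (.inr z)))
  have wt : ∀ {e c : ℝ → ℝ}, Te D e → Ra D R1 c → Φ.B.Wt (Φ.tm e * Φ.rad c) := fun p q =>
    ⟨h.memK p.sm q.sm H.box p.out q.out, (h.re_tm p.sm).mul (h.re_rad q.sm), fun x => by
      rw [h.B.val_mul (h.re_tm p.sm), h.val_tm p.sm, h.val_rad q.sm]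
      exact mul_nonneg (p.pos _) (q.pos _)⟩
  have w1 := wt te rc
  have w2 := wt hζ hξ
  have p0 := Iw_nonneg h H.box te rc (tp_nonneg h H (m + 1))
  have p1 := Iw_nonneg h H.box hζ hξ (tp_nonneg h H (m - 1))
  have low : ∀ {e c : ℝ → ℝ}, Te D e → Ra D R1 c → (∀ t r, e t * c r ≤ ζ t * ξ r) → ∀ F : A,
      (∀ x, Φ.pr x ∈ Bx D R1 → Φ.B.val x F ≤ Φ.B.val x (tp Φ D (m - 1))) →
      Iw Φ e c F ≤ Iw Φ ζ ξ (tp Φ D (m - 1)) := fun p q l F b =>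
    (Iw_F h H.box p q b).trans (Iw_w h H.box p q hζ hξ (tp_nonneg h H _) l)
  have l0 : ∀ J : List (Fin 5), J.length ≤ m - 1 → ∀ x, Φ.pr x ∈ Bx D R1 →
      Φ.B.val x (Φ.sq (D.f J)) ≤ Φ.B.val x (tp Φ D (m - 1)) := fun J hJ x _ => by
    rw [h.val_sq, tp, val_add]; linarith [h.le_lv x D.f hJ, H.rpos x]
  have l1 := low te rc le D.rho fun x _ => by
    rw [tp, val_add]; linarith [h.lv_nonneg x (m - 1) D.f]
  have N1 := nw_pos m
  obtain ⟨d, hd⟩ : ∃ d, d = δ / (8 * nw m) := ⟨_, rfl⟩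
  have dp : 0 < d := by rw [hd]; positivity
  have key : ∀ J ∈ words m, Iw Φ (fun t => e t ^ 2) (fun r => c r ^ 2) (Φ.sq (D.f J)) ≤
      8 * d * Iw Φ (fun t => e t ^ 2) (fun r => c r ^ 2) (tp Φ D (m + 1)) +
        (4 * d⁻¹ + 32 * K ^ 4 + 2) * Iw Φ ζ ξ (tp Φ D (m - 1)) := fun J hJ => by
    have i0 := inv_pos.2 dp
    rcases (mem_words.1 hJ).lt_or_eq with l | l
    · have := low te rc le _ (l0 J (by omega))
      nlinarith [mul_nonneg dp.le p0, mul_nonneg i0.le p1, mul_nonneg (pow_pos (by linarith :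
        0 < K) 4).le p1]
    obtain _ | ⟨b, J⟩ := J
    · simp at l; omega
    have l' : J.length + 1 = m := l
    have q1 : Iw Φ (fun t => e t ^ 2) (fun r => c r ^ 2) (Φ.sq (D.f (b :: J))) ≤
        Iw Φ (fun t => e t ^ 2) (fun r => c r ^ 2) (rl A 2 * (Φ.sq (Φ.X b (D.f J)) + D.rho)) :=
      Iw_F h H.box te rc fun x hx => by
        have := P354PE.sq_split x (D.f (b :: J)) (Φ.X b (D.f J))
        rw [← md_neg x (_ - _), neg_sub] at this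
        rw [h.B.val_mul (h.B.re_rl _), h.B.val_rl, val_add, h.val_sq, h.val_sq]
        linarith [show Φ.B.md x (Φ.X b (D.f J) - D.f (b :: J)) ^ 2 ≤ _ from
          H.hon x hx [b] J (by simp) (by simp; omega)]
    have q2 : Iw Φ (fun t => e t ^ 2) (fun r => c r ^ 2) (Φ.sq (Φ.X b (Φ.X b (D.f J)))) ≤
        Iw Φ (fun t => e t ^ 2) (fun r => c r ^ 2) (rl A 2 * tp Φ D (m + 1)) :=
      Iw_F h H.box te rc fun x hx => by
        rw [h.B.val_mul (h.B.re_rl _), h.B.val_rl, tp, val_add, h.val_sq]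
        linarith [P354PE.sq_split x (Φ.X b (Φ.X b (D.f J))) (D.f (b :: b :: J)),
          show Φ.B.md x (Φ.X b (Φ.X b (D.f J)) - D.f (b :: b :: J)) ^ 2 ≤ _ from
            H.hon x hx [b, b] J (by simp; omega) (by simp; omega),
          h.le_lv x D.f (J := b :: b :: J) (m := m + 1) (by simp; omega)]
    rw [Iw_rl, Iw_add] at q1
    rw [Iw_rl] at q2
    have q3 := low te rc le _ (l0 J (by omega))
    have q4 := low hζ hξ (fun _ _ => le_rfl) _ (l0 J (by omega))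
    have q5 := (h.sk b).move w1.K (D.f J) (Φ.X b (D.f J))
    have q6 := h.B.young w1.K (h.B.wt_rl w1 i0.le) (h.B.wt_rl w1 dp.le) (D.f J)
      (Φ.X b (Φ.X b (D.f J))) fun x => by
        rw [h.B.val_mul (h.B.re_rl _), h.B.val_mul (h.B.re_rl _), h.B.val_rl, h.B.val_rl,
          h.B.md_re w1.re, sq_abs, mul_mul_mul_comm, inv_mul_cancel₀ dp.ne']
        nlinarith [sq_nonneg (Φ.B.val x (Φ.tm (fun t => e t ^ 2) * Φ.rad fun r => c r ^ 2))]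
    have q7 := h.B.young ((h.sk b).dv.K_D _ w1.K) (h.B.wt_rl w2 (t := 8 * K ^ 4) (by positivity))
      (h.B.wt_rl w1 (t := 1 / 2) (by norm_num)) (D.f J) (Φ.X b (D.f J)) fun x => by
        have e0 : Φ.tm (fun t => e t ^ 2) * Φ.rad (fun r => c r ^ 2) =
            (Φ.tm e * Φ.rad c) * (Φ.tm e * Φ.rad c) := by
          simp only [sq, h.tm_mul he.sm he.sm, h.rad_mul hc.sm hc.sm]; ring
        rw [h.B.val_mul (h.B.re_rl _), h.B.val_mul (h.B.re_rl _), h.B.val_rl, h.B.val_rl,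
          h.B.val_mul (h.re_tm hζ.sm), h.B.val_mul (h.re_tm te.sm), h.val_tm hζ.sm,
          h.val_tm te.sm, h.val_rad hξ.sm, h.val_rad rc.sm, e0, D_mul, ← two_mul, md_mul, md_mul,
          md_mul, h.md_tm he.sm, h.md_rad hc.sm, mul_pow, mul_pow, mul_pow, sq_abs, sq_abs]
        by_cases q : e (Φ.pr x).1 = 0 ∨ c (Φ.pr x).2 = 0
        · rcases q with q | q <;> rw [q] <;> simp
        have u1 := pow_le_pow_left₀ (md_nonneg _ _) (md_Xw h k1 he hc x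
          (hf _ fun z => q (.inr z)) b) 2
        have u2 := pow_le_pow_left₀ (md_nonneg x _) (P354PE.md_two (B := Φ.B) (x := x)) 2
        have u3 := one_le_mul_of_one_le_of_one_le (e1 _ fun z => q (.inl z))
          (c1 _ fun z => q (.inr z))
        have u4 : 0 ≤ e (Φ.pr x).1 ^ 2 * c (Φ.pr x).2 ^ 2 := by positivity
        have u5 := mul_le_mul u2 (mul_le_mul_of_nonneg_left u1 u4) (by positivity) (by positivity)
        nlinarith [mul_le_mul_of_nonneg_left u3 (mul_nonneg u4 (show 0 ≤ K ^ 4 by positivity))]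
    rw [nsq_rl_w, nsq_rl_w, abs_le] at q6 q7
    change Φ.B.nsq _ _ ≤ _ at q2 q3 q4
    change _ ≤ 2 * (Φ.B.nsq _ _ + _) at q1
    change Φ.B.nsq _ _ = _ at q5
    have r1 := mul_le_mul_of_nonneg_left q2 dp.le
    have r2 := mul_le_mul_of_nonneg_left q3 i0.le
    have r3 := mul_le_mul_of_nonneg_left q4 (show 0 ≤ K ^ 4 by positivity)
    linarith [q6.1, q7.1]
  have s := Finset.sum_le_card_nsmul _ _ _ key
  have e2 : Iw Φ (fun t => e t ^ 2) (fun r => c r ^ 2) (Φ.lv m D.f) =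
      ∑ J ∈ words m, Iw Φ (fun t => e t ^ 2) (fun r => c r ^ 2) (Φ.sq (D.f J)) := by
    rw [Iw, Fld.lv, Finset.mul_sum, J_sum]; rfl
  have e3 : nw m * (8 * d) = δ := by rw [hd]; field_simp
  have e4 : 4 * d⁻¹ = 32 * nw m / δ := by rw [hd]; field_simp; ring
  rw [nsmul_eq_mul, ← e2, e4, ← nw, mul_add, ← mul_assoc, e3] at s
  rw [tp, Iw_add, ci]
  linarith

/-- The weights of the elliptic estimates. -/
theorem pair_ok (k1 : 1 ≤ K) (he : Cu e K) (hc : Cu c K) (z0 : ∀ t, 0 ≤ ζ t) (x0 : ∀ r, 0 ≤ ξ r)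
    (e1 : ∀ t, e t ≠ 0 → 1 ≤ ζ t) (c1 : ∀ r, c r ≠ 0 → 1 ≤ ξ r) (p : ℝ × ℝ) :
    (0 ≤ e p.1 ^ 2 * c p.2 ^ 2 ∧ e p.1 ^ 2 * c p.2 ^ 2 ≤ 4 * K ^ 2 * (ζ p.1 * ξ p.2)) ∧
      fderiv ℝ (fun p : ℝ × ℝ => e p.1 ^ 2 * c p.2 ^ 2) p (1, 0) ^ 2 ≤
        e p.1 ^ 2 * c p.2 ^ 2 * (4 * K ^ 2 * (ζ p.1 * ξ p.2)) ∧
      fderiv ℝ (fun p : ℝ × ℝ => e p.1 ^ 2 * c p.2 ^ 2) p (0, 1) ^ 2 ≤
        e p.1 ^ 2 * c p.2 ^ 2 * (4 * K ^ 2 * (ζ p.1 * ξ p.2)) := by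
  have d1 := (((he.sm.differentiable (by simp) p.1).hasDerivAt.comp_hasFDerivAt p
    (hasFDerivAt_fst (𝕜 := ℝ))).pow 2).mul (((hc.sm.differentiable (by simp)
      p.2).hasDerivAt.comp_hasFDerivAt p (hasFDerivAt_snd (𝕜 := ℝ))).pow 2)
  have d2 : ∀ v, fderiv ℝ (fun p : ℝ × ℝ => e p.1 ^ 2 * c p.2 ^ 2) p v = 2 * (e p.1 * c p.2) *
      (e p.1 * deriv c p.2 * v.2 + c p.2 * deriv e p.1 * v.1) := fun v => by
    rw [show fderiv ℝ (fun p : ℝ × ℝ => e p.1 ^ 2 * c p.2 ^ 2) p = _ from d1.fderiv]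
    simp
    ring
  have p0 := mul_nonneg (z0 p.1) (x0 p.2)
  rw [d2, d2]
  by_cases q : e p.1 = 0 ∨ c p.2 = 0
  · rcases q with q | q <;> rw [q] <;> simp <;> positivity
  have u3 := one_le_mul_of_one_le_of_one_le (e1 _ fun z => q (.inl z)) (c1 _ fun z => q (.inr z))
  have u4 : 0 ≤ e p.1 ^ 2 * c p.2 ^ 2 := by positivity
  have u5 := mul_le_one₀ (he.sq_le p.1) (sq_nonneg _) (hc.sq_le p.2)
  have u6 : K ^ 2 ≤ K ^ 2 * (ζ p.1 * ξ p.2) := le_mul_of_one_le_right (sq_nonneg _) u3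
  have u7 : ∀ {s t : ℝ}, |s| ≤ 1 → |t| ≤ K → (s * t) ^ 2 ≤ K ^ 2 := fun a b => by
    rw [← sq_abs]
    exact pow_le_pow_left₀ (abs_nonneg _) ((P354PE.ab a b).trans_eq (one_mul K)) 2
  have u8 := mul_le_mul_of_nonneg_left ((u7 (hc.le p.2) (he.der p.1)).trans u6) u4
  have u9 := mul_le_mul_of_nonneg_left ((u7 (he.le p.1) (hc.der p.2)).trans u6) u4
  refine ⟨⟨u4, by nlinarith [one_le_pow₀ (n := 2) k1]⟩, ?_, ?_⟩ <;> simp only <;> nlinarith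

end Vale.Agent.P354PT
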