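import Vale.Agent.P354PT.Int

/-!
The majorants for the members of the family, and their integrals.
-/

open scoped ContDiff
open Set

namespace Vale.Agent.P354PT

open Vale.Agent.P354XT Vale.Agent.P354XI Vale.Agent.P354XI.Ibp

/-- The radii. -/
structure Rd where
  rI : ℝ
  y0 : ℝ
  q1 : ℝ
  p1 : ℝ
  p2 : ℝ
  p3 : ℝ
  p4 : ℝ
  q4 : ℝ
  R0 : ℝ
  R1 : ℝ

structure Rd.Ok (ρ : Rd) : Prop where
  a : ρ.rI < ρ.y0
  b : ρ.y0 < ρ.q1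
  c : ρ.q1 < ρ.p1
  d : ρ.p1 < ρ.p2
  e : ρ.p2 < ρ.p3
  f : ρ.p3 < ρ.p4
  g : ρ.p4 < ρ.q4
  h : 2 * ρ.q4 ≤ ρ.R0
  i : 1 ≤ ρ.R0
  j : 20 * ρ.R0 ≤ ρ.R1
  k : 0 ≤ ρ.q4

/-- The cut offs. -/
noncomputable def Rd.cS (ρ : Rd) (r : ℝ) : ℝ :=
  bu ρ.rI ρ.y0 ρ.q1 ρ.p1 r + bu ρ.p4 ρ.q4 (5 * ρ.R1 / 2) (3 * ρ.R1) r
noncomputable def Rd.cO (ρ : Rd) : ℝ → ℝ := bu ρ.rI ρ.y0 (5 * ρ.R1 / 2) (3 * ρ.R1)
noncomputable def eS (t1 s t : ℝ) : ℝ := up 1 (3 / 2) (t - t1) * dn 0 1 (t - s)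
noncomputable def eO (s t : ℝ) : ℝ := bu (-2) (-1) 0 1 (t - s)

theorem Rd.Ok.cS_mem {ρ : Rd} (o : ρ.Ok) {r : ℝ} (h : ρ.cS r ≠ 0) :
    r ∈ Icc ρ.rI ρ.p1 ∨ r ∈ Icc ρ.p4 (3 * ρ.R1) := by
  by_contra q
  rw [not_or] at q
  exact h (by rw [Rd.cS, bu_out o.a o.c q.1, bu_out o.g (by linarith [o.i, o.j]) q.2, add_zero])

theorem Rd.Ok.cS_one {ρ : Rd} (o : ρ.Ok) {r : ℝ}
    (h : r ∈ Icc ρ.y0 ρ.q1 ∪ Icc ρ.q4 (5 * ρ.R1 / 2)) : 1 ≤ ρ.cS r := by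
  rcases h with h | h
  · rw [Rd.cS, bu_one o.a o.c h]; exact le_add_of_nonneg_right (bu_nonneg _ _ _ _ _)
  · rw [Rd.cS, bu_one o.g (by linarith [o.i, o.j]) h]
    exact le_add_of_nonneg_left (bu_nonneg _ _ _ _ _)

theorem Rd.Ok.cu {ρ : Rd} (o : ρ.Ok) : ∃ K, 1 ≤ K ∧ Cu ρ.cS K ∧ Cu ρ.cO K ∧
    ∀ t1 s, Cu (eS t1 s) K ∧ Cu (eO s) K := by
  have R : 5 * ρ.R1 / 2 < 3 * ρ.R1 := by linarith [o.i, o.j]
  have ab : ∀ a b c d x, |bu a b c d x| ≤ 1 := fun a b c d x =>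
    abs_le.2 ⟨by linarith [bu_nonneg a b c d x], bu_le a b c d x⟩
  obtain ⟨K1, k1, h1⟩ := cu_of (g := ρ.cS) ((bu_sm _ _ _ _).add (bu_sm _ _ _ _)) (fun r => by
      rcases le_total r ρ.p2 with q | q
      · rw [Rd.cS, bu_out o.g R fun z => by linarith [z.1, o.e, o.f], add_zero]; exact ab _ _ _ _ _
      · rw [Rd.cS, bu_out o.a o.c fun z => by linarith [z.2, o.d], zero_add]; exact ab _ _ _ _ _)
    (a := ρ.rI - 1) (b := 3 * ρ.R1 + 1) (p := 0) (q := 0)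
    (fun r q => by_contra fun z => (o.cS_mem z).elim (fun u => by linarith [u.1]) fun u => by
      linarith [u.1, o.a, o.b, o.c, o.d, o.e, o.f])
    fun r q => by_contra fun z => (o.cS_mem z).elim (fun u => by
      linarith [u.2, o.d, o.e, o.f, o.g, o.h, o.i, o.j, o.k]) fun u => by linarith [u.2]
  obtain ⟨K2, -, h2⟩ := cu_of (g := ρ.cO) (bu_sm _ _ _ _) (ab _ _ _ _) (a := ρ.rI - 1)
    (b := 3 * ρ.R1 + 1) (p := 0) (q := 0) (fun r q => bu_out o.a R fun z => by linarith [z.1])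
    fun r q => bu_out o.a R fun z => by linarith [z.2]
  obtain ⟨K3, k3, h3⟩ := cu_up (show (1 : ℝ) < 3 / 2 by norm_num)
  obtain ⟨K4, k4, h4⟩ := cu_dn (show (0 : ℝ) < 1 by norm_num)
  obtain ⟨K5, k5, h5⟩ := cu_up (show (-2 : ℝ) < -1 by norm_num)
  have := (abs_nonneg _).trans (h2.der 0)
  exact ⟨K1 + K2 + K3 + K4 + K5, by linarith, h1.mono (by linarith), h2.mono (by linarith),
    fun t1 s => ⟨((h3.sh t1).mul (h4.sh s)).mono (by linarith),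
      ((h5.mul h4).sh s).mono (by linarith)⟩⟩

theorem eS_mem {t1 s t : ℝ} (h : eS t1 s t ≠ 0) : t ∈ Icc (t1 + 1) (s + 1) :=
  ⟨not_lt.1 fun q => h (by rw [eS, up_zero (by norm_num) (by linarith), zero_mul]),
    not_lt.1 fun q => h (by rw [eS, dn_zero one_pos (by linarith), mul_zero])⟩

theorem eS_one {t1 s t : ℝ} (h : t ∈ Icc (t1 + 3 / 2) s) : eS t1 s t = 1 := by
  rw [eS, up_one (by norm_num) (by linarith [h.1]), dn_one one_pos (by linarith [h.2]), one_mul]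

theorem ZA_one {t1 t : ℝ} {κ : ℕ} (h : t ∈ Icc (t1 + 1) (t1 + κ + 1)) :
    Z t1 (Finset.range (κ + 1)) t = 1 := by
  rw [Finset.range_eq_Ico]
  exact Z_one (by simpa using h.1) (by push_cast; linarith [h.2])

theorem ZF_one {t1 t : ℝ} {κ : ℕ} (k3 : 3 ≤ κ) (h : t ∈ Icc (t1 + κ - 2) (t1 + κ + 1)) :
    Z t1 (Finset.Icc (κ - 3) κ) t = 1 := by
  rw [← Finset.Ico_add_one_right_eq_Icc]
  exact Z_one (by rw [Nat.cast_sub k3]; push_cast; linarith [h.1]) (by push_cast; linarith [h.2])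

theorem Z_mono (t1 : ℝ) {s s' : Finset ℕ} (h : s ⊆ s') (t : ℝ) : Z t1 s t ≤ Z t1 s' t :=
  Finset.sum_le_sum_of_subset_of_nonneg h fun _ _ _ => bp_nonneg _

variable {A : Type} [CommRing A] [Algebra ℂ A]

/-- The weights of bk and Bf. -/
noncomputable def wb (D : Dat A) (ρ : Rd) (r : ℝ) : ℝ :=
  D.wn ρ.R0 r * (dn ρ.p1 ρ.p2 r + up ρ.p3 ρ.p4 r)
noncomputable def wB (ρ : Rd) (r : ℝ) : ℝ := up (ρ.R0 / 2) ρ.R0 r * dn (3 * ρ.R1) (4 * ρ.R1) r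

/-- The integrals over the strips and over the final slabs, one level below the top. -/
noncomputable def Sm (Φ : Fld A) (D : Dat A) (ρ : Rd) (m κ : ℕ) : ℝ :=
  Iw Φ (fun t => eS D.t1 (D.t1 + κ) t ^ 2) (fun r => ρ.cS r ^ 2) (tp Φ D m)
noncomputable def Om (Φ : Fld A) (D : Dat A) (ρ : Rd) (m κ : ℕ) : ℝ :=
  Iw Φ (fun t => eO (D.t1 + κ) t ^ 2) (fun r => ρ.cO r ^ 2) (tp Φ D m)

/-- The hypotheses. -/
structure St (Φ : Fld A) (D : Dat A) (ρ : Rd) (M a Cf rm : ℝ) (n k κ : ℕ) : Prop where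
  is : Φ.Is
  ok : ρ.Ok
  fam : Fam Φ D M a n k Cf rm ρ.rI (5 * ρ.R0) ρ.R1 1
  n1 : 1 ≤ n
  κK : κ ≤ D.K

namespace St
variable {Φ : Fld A} {D : Dat A} {ρ : Rd} {M a Cf rm : ℝ} {n k κ : ℕ}
  (S : St Φ D ρ M a Cf rm n k κ)
include S

theorem R1 : 0 < ρ.R1 := by linarith [S.ok.i, S.ok.j]
theorem tA : Te D (Z D.t1 (Finset.range (κ + 1))) :=
  te_Z fun _ hj => (Nat.lt_succ_iff.1 (Finset.mem_range.1 hj)).trans S.κK
theorem tF : Te D (Z D.t1 (Finset.Icc (κ - 3) κ)) :=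
  te_Z fun _ hj => (Finset.mem_Icc.1 hj).2.trans S.κK
theorem t3 : Te D (Z D.t1 (Finset.range 3)) :=
  te_Z fun _ hj => (Nat.lt_succ_iff.1 (Finset.mem_range.1 hj)).trans S.fam.K2
theorem rf : Ra D ρ.R1 (D.wf ρ.R1) := ra_wf S.fam S.R1
theorem rn : Ra D ρ.R1 (D.wn ρ.R0) := ra_ch S.fam (dn_sm _ _) (dn_nonneg _ _) fun _ q =>
  dn_zero (by linarith) (by linarith [S.ok.i, S.ok.j])
theorem wn_le (r : ℝ) : D.wn ρ.R0 r ≤ D.wf ρ.R1 r := by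
  refine mul_le_mul_of_nonneg_left ?_ (ch_mem S.fam r).1
  rcases le_total r (3 * ρ.R1) with q | q
  · rw [dn_one (a := 3 * ρ.R1) (by linarith [S.R1]) q]; exact dn_le _ _ _
  · rw [dn_zero (by linarith) (by linarith [S.ok.i, S.ok.j])]; exact dn_nonneg _ _ _
theorem wb_le (r : ℝ) : wb D ρ r ≤ D.wf ρ.R1 r := by
  refine (mul_le_of_le_one_right (S.rn.pos r) ?_).trans (S.wn_le r)
  rcases le_total r ρ.p2 with q | q
  · rw [up_zero S.ok.f (by linarith [S.ok.e]), add_zero]; exact dn_le _ _ _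
  · rw [dn_zero S.ok.d q, zero_add]; exact up_le _ _ _
theorem rb : Ra D ρ.R1 (wb D ρ) :=
  ⟨S.rn.sm.mul ((dn_sm _ _).add (up_sm _ _)), fun r => mul_nonneg (S.rn.pos r)
    (add_nonneg (dn_nonneg _ _ _) (up_nonneg _ _ _)), fun r q => by rw [wb, S.rn.out r q, zero_mul]⟩
theorem wb_one {r : ℝ} (h : r ∈ Icc ρ.rI ρ.p1 ∪ Icc ρ.p4 (2 * ρ.R0)) : 1 ≤ wb D ρ r := by
  obtain ⟨a, b, c, d, e, f, g, h', i, j, l⟩ := S.ok
  rcases h with h | h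
  · rw [wb, Dat.wn, S.fam.ch1 _ h.1, dn_one (by linarith) (by linarith [h.2]), dn_one d h.2]
    linarith [up_nonneg ρ.p3 ρ.p4 r]
  · rw [wb, Dat.wn, S.fam.ch1 _ (by linarith [h.1]), dn_one (by linarith) h.2, up_one f h.1]
    linarith [dn_nonneg ρ.p1 ρ.p2 r]
theorem rI_le : ρ.rI ≤ ρ.R0 / 2 := by
  obtain ⟨a, b, c, d, e, f, g, h', -⟩ := S.ok
  linarith
theorem ra_bu {x y z w : ℝ} (h : x < y) (h' : z < w) (e1 : ρ.rI ≤ x) (e2 : w ≤ 4 * ρ.R1) :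
    Ra D ρ.R1 (bu x y z w) := ⟨bu_sm _ _ _ _, bu_nonneg _ _ _ _, fun _ q => bu_out h h' fun u =>
      q ⟨(r00_lt S.fam).le.trans (e1.trans u.1), u.2.trans e2⟩⟩
theorem rB : Ra D ρ.R1 (wB ρ) :=
  S.ra_bu (by linarith [S.ok.i]) (by linarith [S.R1]) S.rI_le le_rfl
theorem wB_le (r : ℝ) : wB ρ r ≤ D.wf ρ.R1 r := by
  refine mul_le_mul_of_nonneg_right ?_ (dn_nonneg _ _ _)
  rcases le_total r (ρ.R0 / 2) with q | q
  · rw [up_zero (by linarith [S.ok.i]) q]; exact (ch_mem S.fam r).1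
  · rw [S.fam.ch1 _ (S.rI_le.trans q)]; exact up_le _ _ _

theorem sl_nonneg {c : ℝ → ℝ} (hc : Ra D ρ.R1 c) {F : A} (p : ∀ x, 0 ≤ Φ.B.val x F) {j : ℕ}
    (hj : j ≤ D.K) : 0 ≤ D.sl Φ j c F := Iw_nonneg S.is S.fam.box (te_bp hj) hc p

theorem rest_ge (m : ℕ) : ∑ j ∈ Finset.range 3, D.Ef Φ m ρ.R1 j ≤ D.rest Φ m ρ.R1 κ ∧
    Iw Φ (Z D.t1 (Finset.range (κ + 1))) (D.wf ρ.R1) (tp Φ D (m - 1)) ≤ D.rest Φ m ρ.R1 κ ∧
    ∑ j ∈ Finset.range (κ + 1), (D.er Φ ρ.R1 j / D.h j + D.h j * D.Ef Φ m ρ.R1 j) ≤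
      D.rest Φ m ρ.R1 κ := by
  have l : ∀ j ∈ Finset.range (κ + 1), j ≤ D.K := fun _ hj =>
    (Nat.lt_succ_iff.1 (Finset.mem_range.1 hj)).trans S.κK
  have a0 : 0 ≤ ∑ j ∈ Finset.range 3, D.Ef Φ m ρ.R1 j := Finset.sum_nonneg fun j hj =>
    S.sl_nonneg S.rf (S.is.lv_nonneg · _ _)
      ((Nat.lt_succ_iff.1 (Finset.mem_range.1 hj)).trans S.fam.K2)
  have a1 : ∀ j ∈ Finset.range (κ + 1), 0 ≤ D.lo Φ m ρ.R1 j := fun j hj =>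
    S.sl_nonneg S.rf (S.is.lv_nonneg · _ _) (l j hj)
  have a2 : ∀ j ∈ Finset.range (κ + 1), 0 ≤ D.er Φ ρ.R1 j := fun j hj =>
    S.sl_nonneg S.rf S.fam.rpos (l j hj)
  have a3 : ∀ j ∈ Finset.range (κ + 1), 0 ≤ D.h j * D.Ef Φ m ρ.R1 j := fun j hj =>
    mul_nonneg (S.fam.hpos j).1.le (S.sl_nonneg S.rf (S.is.lv_nonneg · _ _) (l j hj))
  have a4 : ∀ j ∈ Finset.range (κ + 1), D.er Φ ρ.R1 j ≤ D.er Φ ρ.R1 j / D.h j := fun j hj =>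
    le_div_self (a2 j hj) (S.fam.hpos j).1 (S.fam.hpos j).2
  rw [tp, Iw_add, Iw_Z S.is, Iw_Z S.is, ← Finset.sum_add_distrib, Dat.rest]
  exact ⟨le_add_of_nonneg_right (Finset.sum_nonneg fun j hj => by
      linarith [a1 j hj, a2 j hj, a3 j hj, a4 j hj]),
    le_add_of_nonneg_of_le a0 (Finset.sum_le_sum fun j hj => by
      change D.lo Φ m ρ.R1 j + D.er Φ ρ.R1 j ≤ _
      linarith [a3 j hj, a4 j hj]),
    le_add_of_nonneg_of_le a0 (Finset.sum_le_sum fun j hj => by linarith [a1 j hj])⟩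

/-- The errors with any weight below the cover. -/
theorem rho_le (m : ℕ) {e c : ℝ → ℝ} (he : Te D e) (hc : Ra D ρ.R1 c)
    (l : ∀ t r, e t * c r ≤ Z D.t1 (Finset.range (κ + 1)) t * D.wf ρ.R1 r) :
    Iw Φ e c D.rho ≤ D.rest Φ m ρ.R1 κ :=
  (Iw_w S.is S.fam.box he hc S.tA S.rf S.fam.rpos l).trans ((Iw_F S.is S.fam.box S.tA S.rf
    fun x _ => by rw [tp, val_add]; linarith [S.is.lv_nonneg x (m - 1) D.f]).trans (S.rest_ge m).2.1)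

theorem rest_nonneg (m : ℕ) : 0 ≤ D.rest Φ m ρ.R1 κ :=
  (Iw_nonneg S.is S.fam.box S.tA S.rf (tp_nonneg S.is S.fam _)).trans (S.rest_ge m).2.1

theorem iH (m : ℕ) : Iw Φ (Z D.t1 (Finset.range (κ + 1))) (wb D ρ) (tp Φ D (m + 1)) ≤
    ∑ j ∈ Finset.range (κ + 1), D.bk Φ m ρ.p1 ρ.p2 ρ.p3 ρ.p4 ρ.R0 j + D.rest Φ m ρ.R1 κ := by
  rw [tp, Iw_add, Iw_Z S.is]
  exact add_le_add (Finset.sum_le_sum fun j hj => le_add_of_nonneg_right (S.sl_nonneg S.rn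
    (S.is.lv_nonneg · _ _) ((Nat.lt_succ_iff.1 (Finset.mem_range.1 hj)).trans S.κK)))
    (S.rho_le m S.tA S.rb fun t r => mul_le_mul_of_nonneg_left (S.wb_le r) (S.tA.pos t))

theorem iF (m : ℕ) : Iw Φ (Z D.t1 (Finset.Icc (κ - 3) κ)) (D.wf ρ.R1) (tp Φ D (m + 1)) ≤
    ∑ j ∈ Finset.Icc (κ - 3) κ, D.Ef Φ m ρ.R1 j + D.rest Φ m ρ.R1 κ := by
  rw [tp, Iw_add, Iw_Z S.is]
  exact add_le_add le_rfl (S.rho_le m S.tF S.rf fun t r => mul_le_mul_of_nonneg_right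
    (Z_mono _ (fun j hj => Finset.mem_range.2 (Nat.lt_succ_of_le (Finset.mem_Icc.1 hj).2)) t)
    (S.rf.pos r))

theorem iI (k3 : 3 ≤ κ) (m : ℕ) : Iw Φ (Z D.t1 (Finset.range 3)) (D.wf ρ.R1) (tp Φ D (m + 1)) ≤
    2 * D.rest Φ m ρ.R1 κ := by
  rw [tp, Iw_add, Iw_Z S.is, two_mul]
  exact add_le_add (S.rest_ge m).1 (S.rho_le m S.t3 S.rf fun t r => mul_le_mul_of_nonneg_right
    (Z_mono _ (Finset.range_mono (by omega)) t) (S.rf.pos r))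

theorem tS : Te D fun t => eS D.t1 (D.t1 + κ) t ^ 2 :=
  Te.sq (S.ok.cu.choose_spec.2.2.2 _ _).1.sm fun t q => by
    have : (κ : ℝ) ≤ D.K := by exact_mod_cast S.κK
    exact ⟨by linarith [(eS_mem q).1], by linarith [(eS_mem q).2]⟩
theorem cS_in {r : ℝ} (q : ρ.cS r ≠ 0) : r ∈ Icc ρ.rI (3 * ρ.R1) := by
  obtain ⟨a, b, c, d, e, f, g, h', i, j, l⟩ := S.ok
  exact (S.ok.cS_mem q).elim (fun u => ⟨u.1, by linarith [u.2]⟩) fun u => ⟨by linarith [u.1], u.2⟩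
theorem rS : Ra D ρ.R1 fun r => ρ.cS r ^ 2 :=
  Ra.sq S.ok.cu.choose_spec.2.1.sm fun r q =>
    ⟨(r00_lt S.fam).le.trans (S.cS_in q).1, by linarith [(S.cS_in q).2, S.R1]⟩
theorem cO_in {r : ℝ} (q : ρ.cO r ≠ 0) : r ∈ Icc ρ.rI (3 * ρ.R1) :=
  bu_mem S.ok.a (by linarith [S.R1]) q
theorem rO : Ra D ρ.R1 fun r => ρ.cO r ^ 2 :=
  Ra.sq (bu_sm _ _ _ _) fun r q =>
    ⟨(r00_lt S.fam).le.trans (S.cO_in q).1, by linarith [(S.cO_in q).2, S.R1]⟩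
omit S in
theorem eO_in {s t : ℝ} (q : eO s t ≠ 0) : t ∈ Icc (s - 2) (s + 1) :=
  have u := bu_mem (by norm_num) one_pos q
  ⟨by linarith [u.1], by linarith [u.2]⟩
theorem tO (k3 : 3 ≤ κ) : Te D fun t => eO (D.t1 + κ) t ^ 2 :=
  Te.sq (S.ok.cu.choose_spec.2.2.2 0 _).2.sm fun t q => by
    have : (κ : ℝ) ≤ D.K := by exact_mod_cast S.κK
    have : (3 : ℝ) ≤ κ := by exact_mod_cast k3
    exact ⟨by linarith [(eO_in q).1], by linarith [(eO_in q).2]⟩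

omit S in
theorem sq_le {e c ζ ξ : ℝ → ℝ} {K : ℝ} (he : Cu e K) (hc : Cu c K) (z0 : ∀ t, 0 ≤ ζ t)
    (x0 : ∀ r, 0 ≤ ξ r) (e1 : ∀ t, e t ≠ 0 → 1 ≤ ζ t) (c1 : ∀ r, c r ≠ 0 → 1 ≤ ξ r) (t r : ℝ) :
    e t ^ 2 * c r ^ 2 ≤ ζ t * ξ r := by
  by_cases q : e t = 0 ∨ c r = 0
  · rcases q with q | q <;> rw [q] <;> simpa using mul_nonneg (z0 t) (x0 r)
  · exact (mul_le_one₀ (he.sq_le t) (sq_nonneg _) (hc.sq_le r)).trans
      (one_le_mul_of_one_le_of_one_le (e1 t fun z => q (.inl z)) (c1 r fun z => q (.inr z)))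

/-- The strips and the final slabs by interpolation. -/
theorem iS (k3 : 3 ≤ κ) {K δ : ℝ} (k1 : 1 ≤ K) (d0 : 0 < δ) (c1 : Cu ρ.cS K) (c2 : Cu ρ.cO K)
    (c3 : ∀ t1 s, Cu (eS t1 s) K ∧ Cu (eO s) K) (hf : ∀ r ∈ Icc ρ.rI (3 * ρ.R1), |Φ.f r| ≤ K) :
    Sm Φ D ρ (n + k) κ + Om Φ D ρ (n + k) κ ≤
      δ * (∑ j ∈ Finset.range (κ + 1), D.bk Φ (n + k) ρ.p1 ρ.p2 ρ.p3 ρ.p4 ρ.R0 j +
        (∑ j ∈ Finset.Icc (κ - 3) κ, D.Ef Φ (n + k) ρ.R1 j +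
          ∑ j ∈ Finset.range (κ + 1), D.Bf Φ (n + k) ρ.R0 ρ.R1 j)) +
      (3 * δ + 2 * ci (n + k) K δ) * D.rest Φ (n + k) ρ.R1 κ := by
  have k4 : (3 : ℝ) ≤ κ := by exact_mod_cast k3
  have z1 : ∀ t, eS D.t1 (D.t1 + κ) t ≠ 0 → 1 ≤ Z D.t1 (Finset.range (κ + 1)) t :=
    fun t q => (ZA_one (eS_mem q)).ge
  have a1 := int_le S.is S.fam S.n1 (by linarith [S.n1]) le_rfl k1 d0 (c3 _ _).1 c1
    (fun r q => hf r (S.cS_in q)) S.tA S.rf z1 fun r q => (wf_one S.fam S.R1 (S.cS_in q)).ge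
  have a2 := int_le S.is S.fam S.n1 (by linarith [S.n1]) le_rfl k1 d0 (c3 0 (D.t1 + κ)).2 c2
    (fun r q => hf r (S.cO_in q)) S.tA S.rf
    (fun t q => (ZA_one ⟨by linarith [(eO_in q).1], (eO_in q).2⟩).ge)
    fun r q => (wf_one S.fam S.R1 (S.cO_in q)).ge
  have a3 := Iw_w S.is S.fam.box S.tS S.rS S.tA (S.rb.add S.rB)
    (tp_nonneg S.is S.fam (n + k + 1)) (sq_le (c3 _ _).1 c1 S.tA.pos (S.rb.add S.rB).pos z1
      fun r q => by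
        by_cases u : r ≤ 2 * ρ.R0
        · exact le_add_of_le_of_nonneg (S.wb_one ((S.ok.cS_mem q).imp id fun v => ⟨v.1, u⟩))
            (S.rB.pos r)
        · refine le_add_of_nonneg_of_le (S.rb.pos r) (bu_one ?_ ?_ ⟨?_, (S.cS_in q).2⟩).ge <;>
            linarith [S.ok.i, S.R1])
  have a4 := (Iw_w S.is S.fam.box (S.tO k3) S.rO S.tF S.rf (tp_nonneg S.is S.fam (n + k + 1))
    (sq_le (c3 0 _).2 c2 S.tF.pos S.rf.pos (fun t q => (ZF_one k3 (eO_in q)).ge)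
      fun r q => (wf_one S.fam S.R1 (S.cO_in q)).ge)).trans (S.iF _)
  have a5 := S.rho_le (n + k) S.tA S.rB fun t r =>
    mul_le_mul_of_nonneg_left (S.wB_le r) (S.tA.pos t)
  have a6 : Iw Φ (Z D.t1 (Finset.range (κ + 1))) (wB ρ) (tp Φ D (n + k + 1)) =
      ∑ j ∈ Finset.range (κ + 1), D.Bf Φ (n + k) ρ.R0 ρ.R1 j +
        Iw Φ (Z D.t1 (Finset.range (κ + 1))) (wB ρ) D.rho := by
    rw [tp, Iw_add, Iw_Z S.is]; rfl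
  rw [Iw_c S.is S.rb.sm S.rB.sm, a6] at a3
  have a7 := mul_le_mul_of_nonneg_left (S.rest_ge (n + k)).2.1 (ci_pos (n + k) K d0)
  have a8 := mul_le_mul_of_nonneg_left (add_le_add (a3.trans (add_le_add (S.iH _)
    (add_le_add le_rfl a5))) a4) d0.le
  rw [Sm, Om]
  linarith

end St

end Vale.Agent.P354PT
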