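import Vale.Agent.P354PT.Maj
import Vale.Agent.P354XT.Ops

/-!
The majorants satisfy the hypotheses of CORE; bounds for the flux density.
-/

open scoped ContDiff
open Set

namespace Vale.Agent.P354PT

open Vale.Agent.P354XT Vale.Agent.P354XI Vale.Agent.P354XI.Ibp

variable {A : Type} [CommRing A] [Algebra ℂ A]

/-- The constant of the honest jets. -/
def cw (n : ℕ) : ℝ := 2 * nw (n + 1)

theorem cw_ge (n : ℕ) : 1 ≤ cw n := by rw [cw]; linarith [nw_pos (n + 1)]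

/-- The majorants. -/
noncomputable def hs (Φ : Fld A) (D : Dat A) (ρ : Rd) (n k κ : ℕ) (G : A) : Hs A where
  G := G
  H := rl A (cw n) * (Φ.tm (Z D.t1 (Finset.range (κ + 1))) * Φ.rad (wb D ρ) * tp Φ D (n + k + 1))
  S := rl A (cw n) * (Φ.tm (fun t => eS D.t1 (D.t1 + κ) t ^ 2) * Φ.rad (fun r => ρ.cS r ^ 2) *
    tp Φ D (n + k))
  L := rl A (cw n) * (Φ.tm (Z D.t1 (Finset.range (κ + 1))) * Φ.rad (D.wf ρ.R1) *
    tp Φ D (n + k - 1))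
  I := rl A (cw n) * (Φ.tm (Z D.t1 (Finset.range 3)) * Φ.rad (D.wf ρ.R1) * tp Φ D (n + k + 1))
  F := rl A (cw n) * (Φ.tm (Z D.t1 (Finset.Icc (κ - 3) κ)) * Φ.rad (D.wf ρ.R1) *
    tp Φ D (n + k + 1))
  O := rl A (cw n) * (Φ.tm (fun t => eO (D.t1 + κ) t ^ 2) * Φ.rad (fun r => ρ.cO r ^ 2) *
    tp Φ D (n + k))
  P := rl A (2 * cw n + 2) * ∑ j ∈ Finset.range (κ + 1), Φ.tm (fun t => bp (t - D.t1 - j)) *
    Φ.rad (D.wf ρ.R1) * (rl A (D.h j)⁻¹ * D.rho + rl A (D.h j) * Φ.lv (n + k + 1) D.f)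

theorem gd_nonneg {Φ : Fld A} (h : Φ.Is) (σ : Bool) (n : ℕ) (M a γ : ℝ) {R : ℝ} (hR : 0 ≤ R) (u : A)
    (x : Φ.B.Pt) : 0 ≤ Φ.B.val x (Φ.gd σ n M a γ R u) := by
  cases σ
  · simp only [Fld.gd, cond, h.B.val_mul (h.B.re_rl _), h.B.val_rl, val_sum, h.val_sq]
    positivity
  · simp only [Fld.gd, cond, val_add, h.B.val_mul (h.B.re_rl _), h.B.val_rl]
    exact add_nonneg (mul_nonneg (Real.rpow_nonneg hR _) h.jq_nonneg)
      (mul_nonneg (Real.rpow_nonneg hR _) h.jq_nonneg)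

theorem gd_le (M0 a0 y z γ : ℝ) {R : ℝ} (hR : 0 ≤ R) (σ : Bool) {n : ℕ} (n2 : 2 ≤ n) :
    ∃ C, 0 ≤ C ∧ ∀ (A : Type) [CommRing A] [Algebra ℂ A] (Φ : Fld A) M a x,
      At Φ M0 a0 y z M a x → ∀ u, Φ.B.val x (Φ.gd σ n M a γ R u) ≤ C * Φ.B.val x (Φ.jq (n + 1) u) := by
  classical
  have N := fun m => (zero_le_one.trans (nw_pos m))
  cases σ
  · obtain ⟨C, c1, hC⟩ := Op.bd M0 a0 y z (n - 2) (n + 1) _ l3_sm
    refine ⟨R ^ (-3 : ℝ) * (nw (n - 2) * C ^ 2), mul_nonneg (Real.rpow_nonneg hR _)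
      (mul_nonneg (N _) (sq_nonneg _)), fun A _ _ Φ M a x k u => ?_⟩
    have b := ((hC A Φ M a x k u _ (k.is.bd_nq x (n + 1) u)).1 (by rw [l3_ord]; omega)).jq k.is
    rw [mul_pow, k.is.nq_sq, Fld.jq, k.is.val_lv, ← mul_assoc] at b
    simp only [Fld.gd, cond, k.is.B.val_mul (k.is.B.re_rl _), k.is.B.val_rl, val_sum, k.is.val_sq]
    rw [mul_assoc]
    exact mul_le_mul_of_nonneg_left ((Finset.sum_le_sum_of_subset_of_nonneg
      (Finset.filter_subset _ _) fun _ _ _ => sq_nonneg _).trans b) (Real.rpow_nonneg hR _)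
  · refine ⟨R ^ (γ - 3) * nw n + R ^ (γ - 7), add_nonneg (mul_nonneg (Real.rpow_nonneg hR _) (N _))
      (Real.rpow_nonneg hR _), fun A _ _ Φ M a x k u => ?_⟩
    have b := (k.is.bd_nq x (n + 1) u).R.jq k.is
    rw [k.is.nq_sq] at b
    simp only [Fld.gd, cond, val_add, k.is.B.val_mul (k.is.B.re_rl _), k.is.B.val_rl]
    linarith [mul_le_mul_of_nonneg_left b (Real.rpow_nonneg hR (γ - 3))]

namespace St
variable {Φ : Fld A} {D : Dat A} {ρ : Rd} {M a Cf rm : ℝ} {n k κ : ℕ}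
  (S : St Φ D ρ M a Cf rm n k κ)
include S

theorem mjq {e c : ℝ → ℝ} (he : Te D e) (hc : Ra D ρ.R1 c) {i m : ℕ} (hi : i ≤ n + 1)
    (hm : i + k = m) {W : List (Fin 5)} (hW : W.length = k) {U : Set (ℝ × ℝ)}
    (hU : ∀ p ∈ U, 1 ≤ e p.1 ∧ 1 ≤ c p.2) :
    Mj Φ (rl A (cw n) * (Φ.tm e * Φ.rad c * tp Φ D m)) U fun x => Φ.B.val x (Φ.jq i (D.f W)) :=
  mj S.is S.fam.box he hc (tp_nonneg S.is S.fam m) (by linarith [cw_ge n]) fun x hx => by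
    obtain ⟨u1, u2⟩ := hU _ hx
    have b := jq_le S.is S.fam (x := x) ⟨by_contra fun q => by linarith [he.out _ q],
      by_contra fun q => by linarith [hc.out _ q]⟩ hi (W := W) (by omega)
    rw [hW, hm] at b
    exact b.trans (mul_le_mul_of_nonneg_left (le_mul_of_one_le_left (tp_nonneg S.is S.fam m x)
      (one_le_mul_of_one_le_of_one_le u1 u2)) (zero_le_one.trans (cw_ge n)))

theorem val_P (G : A) (x : Φ.B.Pt) : Φ.B.val x (hs Φ D ρ n k κ G).P =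
    (2 * cw n + 2) * ∑ j ∈ Finset.range (κ + 1), bp ((Φ.pr x).1 - D.t1 - j) *
      D.wf ρ.R1 (Φ.pr x).2 * ((D.h j)⁻¹ * Φ.B.val x D.rho +
        D.h j * Φ.B.val x (Φ.lv (n + k + 1) D.f)) := by
  simp only [hs, S.is.B.val_mul (S.is.B.re_rl _), S.is.B.val_rl, val_sum,
    S.is.val_w (bp_sh _ _) S.rf.sm, val_add]

theorem hs_ok (k3 : 3 ≤ κ) {σ : Bool} {g : ℝ → ℝ} {γ R : ℝ} (hR : R ≤ ρ.R1) {W : List (Fin 5)}
    (hW : W ∈ yw k) {G : A} (hG : Mj Φ G (Icc (D.t1 + 3 / 2) (D.t1 + κ) ×ˢ Icc (3 * R / 4) (9 * R / 4))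
      fun x => eta g D.t1 (D.t1 + κ) (Φ.pr x).1 ^ 2 * Φ.B.val x (Φ.gd σ n M a γ R (D.f W))) :
    (hs Φ D ρ n k κ G).Ok Φ σ n g M a γ ρ.y0 ρ.q1 ρ.q4 R D.t1 (D.t1 + κ) (D.f W) D.del := by
  have l := (mem_yw.1 hW).1
  have n1 := S.n1
  have R1 := S.R1
  have zA : ∀ {t}, t ∈ Icc (D.t1 + 3 / 2) (D.t1 + κ) → Z D.t1 (Finset.range (κ + 1)) t = 1 :=
    fun q => ZA_one ⟨by linarith [q.1], by linarith [q.2]⟩
  have wf : ∀ {r}, r ∈ Icc ρ.y0 (5 * R / 2) → D.wf ρ.R1 r = 1 := fun q =>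
    wf_one S.fam R1 ⟨S.ok.a.le.trans q.1, by linarith [q.2]⟩
  have q0 : ∀ x j, 0 ≤ (D.h j)⁻¹ * Φ.B.val x D.rho + D.h j * Φ.B.val x (Φ.lv (n + k + 1) D.f) :=
    fun x j => add_nonneg (mul_nonneg (inv_pos.2 (S.fam.hpos j).1).le (S.fam.rpos x))
      (mul_nonneg (S.fam.hpos j).1.le (S.is.lv_nonneg _ _ _))
  have c1 := cw_ge n
  refine ⟨hG, S.mjq S.tA S.rb le_rfl (by omega) l fun p q => ⟨(zA q.1).ge,
      S.wb_one (.inl ⟨S.ok.a.le.trans q.2.1, q.2.2.trans S.ok.c.le⟩)⟩,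
    S.mjq S.tS S.rS (by omega) rfl l fun p q => ⟨by rw [eS_one q.1, one_pow],
      one_le_pow₀ (S.ok.cS_one (q.2.imp id fun u => ⟨u.1, by linarith [u.2]⟩))⟩,
    S.mjq S.tA S.rf (by omega) (by omega) l fun p q => ⟨(zA q.1).ge, (wf q.2).ge⟩,
    S.mjq S.t3 S.rf le_rfl (by omega) l fun p q => ⟨(ZA_one (κ := 2) ⟨by linarith [q.1.1],
      by push_cast; linarith [q.1.2]⟩).ge, (wf q.2).ge⟩,
    S.mjq S.tF S.rf le_rfl (by omega) l fun p q => ⟨(ZF_one k3 ⟨by linarith [q.1.1],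
      by linarith [q.1.2]⟩).ge, (wf q.2).ge⟩,
    S.mjq (S.tO k3) S.rO (by omega) rfl l fun p q => ⟨by
      rw [eO, bu_one (by norm_num) one_pos ⟨by linarith [q.1.1], by linarith [q.1.2]⟩, one_pow], by
      rw [Rd.cO, bu_one S.ok.a (by linarith) ⟨q.2.1, by linarith [q.2.2]⟩, one_pow]⟩,
    Φ.B.K.mul_mem_left _ (Φ.B.K.sum_mem fun j hj => wK S.is S.fam.box
      (te_bp ((Nat.lt_succ_iff.1 (Finset.mem_range.1 hj)).trans S.κK)) S.rf _),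
    fun x => ?_, fun x hx => ?_⟩
  · rw [S.val_P]
    exact mul_nonneg (by linarith) (Finset.sum_nonneg fun j _ =>
      mul_nonneg (mul_nonneg (bp_nonneg _) (S.rf.pos _)) (q0 x j))
  have z := zA hx.1
  have bx : Φ.pr x ∈ Bx D ρ.R1 := ⟨by_contra fun q => by linarith [S.tA.out _ q],
    by_contra fun q => by linarith [S.rf.out _ q, wf hx.2]⟩
  obtain ⟨j, hj, mn⟩ := Finset.exists_min_image ((Finset.range (κ + 1)).filter
    fun j : ℕ => bp ((Φ.pr x).1 - D.t1 - j) ≠ 0) (fun j => (D.h j)⁻¹ * Φ.B.val x D.rho +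
      D.h j * Φ.B.val x (Φ.lv (n + k + 1) D.f)) (by
      obtain ⟨j, hj, e⟩ := Finset.exists_ne_zero_of_sum_ne_zero (z.trans_ne one_ne_zero)
      exact ⟨j, Finset.mem_filter.2 ⟨hj, e⟩⟩)
  obtain ⟨j1, j2⟩ := Finset.mem_filter.1 hj
  have j3 : (Φ.pr x).1 - D.t1 - j ∈ Icc (0 : ℝ) 2 := by_contra fun q => j2 (bp_out q)
  have p0 := S.fam.rpos x
  obtain ⟨h0, h1⟩ := S.fam.hpos j
  refine ⟨D.h j, √(Φ.B.val x D.rho), h1, fun b c J hJ => S.fam.del j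
    ((Nat.lt_succ_iff.1 (Finset.mem_range.1 j1)).trans S.κK) x
    ⟨⟨by linarith [j3.1], by linarith [j3.2]⟩, bx.2⟩ b c J (mem_words.2 hJ),
    fun J hJ => Real.le_sqrt_of_sq_le (S.fam.eqY x bx W hW J (mem_words.2 hJ)), ?_⟩
  have s1 : (D.h j)⁻¹ * Φ.B.val x D.rho + D.h j * Φ.B.val x (Φ.lv (n + k + 1) D.f) ≤
      ∑ i ∈ Finset.range (κ + 1), bp ((Φ.pr x).1 - D.t1 - i) * D.wf ρ.R1 (Φ.pr x).2 *
        ((D.h i)⁻¹ * Φ.B.val x D.rho + D.h i * Φ.B.val x (Φ.lv (n + k + 1) D.f)) := by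
    rw [← one_mul (_ + _), ← z, Z, Finset.sum_mul, wf hx.2]
    refine Finset.sum_le_sum fun i hi => ?_
    rw [mul_one]
    by_cases u : bp ((Φ.pr x).1 - D.t1 - i) = 0
    · rw [u, zero_mul, zero_mul]
    · exact mul_le_mul_of_nonneg_left (mn i (Finset.mem_filter.2 ⟨hi, u⟩)) (bp_nonneg _)
  have s2 := jq_le S.is S.fam bx le_rfl (W := W) (by omega)
  rw [l, show n + 1 + k = n + k + 1 by omega, tp, val_add, ← cw, ← S.is.nq_sq] at s2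
  have s3 := Real.sq_sqrt p0
  have s4 := S.is.lv_nonneg x (n + k + 1) D.f
  rw [S.val_P]
  refine le_trans ?_ (mul_le_mul_of_nonneg_left s1 (by linarith))
  generalize Φ.nq x (n + 1) (D.f W) = α at *
  generalize √(Φ.B.val x D.rho) = β at *
  generalize Φ.B.val x (Φ.lv (n + k + 1) D.f) = L at *
  rw [← s3] at s2 ⊢
  have i1 : 1 ≤ (D.h j)⁻¹ := (one_le_inv₀ h0).2 h1
  have i2 : β ^ 2 ≤ (D.h j)⁻¹ * β ^ 2 := le_mul_of_one_le_left (sq_nonneg _) i1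
  have i3 : D.h j * β ^ 2 ≤ β ^ 2 := mul_le_of_le_one_left (sq_nonneg _) h1
  have i4 : β * α ≤ D.h j * α ^ 2 + (D.h j)⁻¹ * β ^ 2 := by
    have : (D.h j)⁻¹ * (D.h j * α - β) ^ 2 = D.h j * α ^ 2 - 2 * (β * α) + (D.h j)⁻¹ * β ^ 2 := by
      field_simp
      ring
    nlinarith [mul_nonneg (zero_le_one.trans i1) (sq_nonneg (D.h j * α - β)),
      mul_nonneg h0.le (sq_nonneg α), sq_nonneg β]
  have i5 := mul_le_mul_of_nonneg_left s2 h0.le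
  have i6 := mul_le_mul_of_nonneg_left (i3.trans i2) (zero_le_one.trans c1)
  nlinarith [mul_nonneg h0.le s4]

theorem rhs_le (k3 : 3 ≤ κ) (G : A) {C0 eH ε C1 : ℝ} (e0 : 0 ≤ eH) (e1 : 0 ≤ ε) (e2 : 0 ≤ C1) :
    C0 * Φ.B.J (hs Φ D ρ n k κ G).G + eH * Φ.B.J (hs Φ D ρ n k κ G).H +
      ε * Φ.B.J (hs Φ D ρ n k κ G).F + C1 * (Φ.B.J (hs Φ D ρ n k κ G).S +
        Φ.B.J (hs Φ D ρ n k κ G).L + Φ.B.J (hs Φ D ρ n k κ G).I + Φ.B.J (hs Φ D ρ n k κ G).O +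
        Φ.B.J (hs Φ D ρ n k κ G).P) ≤
      C0 * Φ.B.J G + eH * cw n * ∑ j ∈ Finset.range (κ + 1),
        D.bk Φ (n + k) ρ.p1 ρ.p2 ρ.p3 ρ.p4 ρ.R0 j +
      ε * cw n * ∑ j ∈ Finset.Icc (κ - 3) κ, D.Ef Φ (n + k) ρ.R1 j +
      C1 * cw n * (Sm Φ D ρ (n + k) κ + Om Φ D ρ (n + k) κ) +
      ((eH + ε + 5 * C1) * cw n + 2 * C1) * D.rest Φ (n + k) ρ.R1 κ := by
  have c0 := zero_le_one.trans (cw_ge n)
  have a1 := mul_le_mul_of_nonneg_left (S.iH (n + k)) (mul_nonneg e0 c0)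
  have a2 := mul_le_mul_of_nonneg_left (S.iF (n + k)) (mul_nonneg e1 c0)
  have a3 := mul_le_mul_of_nonneg_left (S.iI k3 (n + k)) (mul_nonneg e2 c0)
  have a4 := mul_le_mul_of_nonneg_left (S.rest_ge (n + k)).2.1 (mul_nonneg e2 c0)
  have a5 := mul_le_mul_of_nonneg_left (S.rest_ge (n + k)).2.2
    (mul_nonneg e2 (show 0 ≤ 2 * cw n + 2 by linarith))
  have a6 : Φ.B.J (hs Φ D ρ n k κ G).P = (2 * cw n + 2) * ∑ j ∈ Finset.range (κ + 1),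
      (D.er Φ ρ.R1 j / D.h j + D.h j * D.Ef Φ (n + k) ρ.R1 j) := by
    rw [hs, J_rl, J_sum]
    refine congrArg _ (Finset.sum_congr rfl fun j _ => ?_)
    rw [div_eq_inv_mul]
    exact (Iw_add _ _).trans (congrArg₂ _ (Iw_rl _ _) (Iw_rl _ _))
  rw [a6]
  simp only [hs, J_rl, Sm, Om, Iw] at *
  linarith

end St

end Vale.Agent.P354PT
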