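import Vale.Agent.P354PT.Ok

/-!
The three steps: the word T^k up to R1, the elliptic estimate, all words up to 4 R0.
-/

open scoped ContDiff
open Set

namespace Vale.Agent.P354PT

open Vale.Agent.P354XT Vale.Agent.P354XI Vale.Agent.P354XI.Ibp

variable {A : Type} [CommRing A] [Algebra ℂ A]

/-- The conclusion of CORE. -/
def Ce (Φ : Fld A) (σ : Bool) (n : ℕ) (g θ : ℝ → ℝ)
    (M a γ y0 r1 q1 q2 q3 q4 R0 R1 eH ε C0 C1 : ℝ) : Prop :=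
  ∀ t1 s ra rc : ℝ, t1 + 3 ≤ s → ra < y0 → 5 * R1 / 2 < rc →
    Icc (t1 + 1) (s + 1) ×ˢ Icc ra rc ⊆ Φ.Om → ∀ u ∈ Φ.Sp, ∀ del : Fin 5 → Fin 5 → A,
    (∀ b c, Φ.B.Re (del b c)) → ∀ H : Hs A, H.Ok Φ σ n g M a γ y0 q1 q4 R1 t1 s u del →
    ∀ c1 c2 c3 : ℝ → ℝ, Wl c1 r1 (3 * R0) → Wl c2 r1 q2 → Wl c3 q3 (3 * R0) →
    ∀ V V' : List (Fin 5), IsY V → V.length ≤ n → IsY V' → V'.length ≤ n - 1 →
      Φ.B.J (Φ.tm (fun t => eta g t1 s t ^ 2) * Φ.rad c2 * Φ.jq 1 (Φ.wd V u)) +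
        Φ.B.J (Φ.tm (fun t => eta g t1 s t ^ 2) * Φ.rad c3 * Φ.jq 1 (Φ.wd V u)) +
        Φ.B.J (Φ.tm (fun t => eta g t1 s t ^ 2) * Φ.rad c1 * Φ.jq 1 (Φ.wd V' u)) +
        Φ.B.J (Φ.tm (fun t => θ (t - s) ^ 2) * Φ.rad c1 * Φ.jq 1 (Φ.wd V u)) ≤
      C0 * Φ.B.J H.G + eH * Φ.B.J H.H + ε * Φ.B.J H.F +
        C1 * (Φ.B.J H.S + Φ.B.J H.L + Φ.B.J H.I + Φ.B.J H.O + Φ.B.J H.P)

/-- The remainder. -/
noncomputable def rem (Φ : Fld A) (D : Dat A) (ρ : Rd) (n k κ : ℕ) (eH ε C1 : ℝ) : ℝ :=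
  eH * cw n * ∑ j ∈ Finset.range (κ + 1), D.bk Φ (n + k) ρ.p1 ρ.p2 ρ.p3 ρ.p4 ρ.R0 j +
    ε * cw n * ∑ j ∈ Finset.Icc (κ - 3) κ, D.Ef Φ (n + k) ρ.R1 j +
    C1 * cw n * (Sm Φ D ρ (n + k) κ + Om Φ D ρ (n + k) κ) +
    ((eH + ε + 5 * C1) * cw n + 2 * C1) * D.rest Φ (n + k) ρ.R1 κ

/-- The cut off of the elliptic step. -/
noncomputable def cc (R0 : ℝ) : ℝ → ℝ := bu (2 * R0) (3 * R0) (9 * R0) (10 * R0)

theorem wl_bu {a b c d x y : ℝ} (h : a < b) (k : c < d) (e1 : x ≤ a) (e2 : d ≤ y) :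
    Wl (bu a b c d) x y := ⟨bu_sm _ _ _ _, bu_nonneg _ _ _ _, bu_le _ _ _ _, fun _ q =>
      bu_out h k fun u => q ⟨e1.trans u.1, u.2.trans e2⟩⟩

theorem wl_zero (x y : ℝ) : Wl (fun _ => 0) x y :=
  ⟨contDiff_const, fun _ => le_rfl, fun _ => zero_le_one, fun _ _ => rfl⟩

theorem isY_rep (m : ℕ) : IsY (List.replicate m 0) := fun _ hx => .inl (List.eq_of_mem_replicate hx)

theorem isY_nil : IsY [] := fun _ hx => nomatch hx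

variable {g θ : ℝ → ℝ} {c : ℝ}

theorem eta_mem (r : Ramp g θ c) {t1 s t : ℝ} (h : eta g t1 s t ≠ 0) : t ∈ Icc (t1 + 3 / 2) s :=
  ⟨not_lt.1 fun q => h (by rw [eta, up_zero (by norm_num) (by linarith), zero_mul]),
    not_lt.1 fun q => h (by rw [eta, r.zero _ (by linarith), mul_zero])⟩

theorem cu_eta (r : Ramp g θ c) {R0 : ℝ} (R : 0 < R0) :
    ∃ K, 1 ≤ K ∧ Cu (cc R0) K ∧ ∀ t1 s, Cu (eta g t1 s) K := by
  obtain ⟨K1, k1, h1⟩ := cu_up (show (3 / 2 : ℝ) < 2 by norm_num)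
  obtain ⟨K2, k2, h2⟩ := cu_of r.sg r.le r.one r.zero
  obtain ⟨K3, k3, h3⟩ := cu_up (show 2 * R0 < 3 * R0 by linarith)
  obtain ⟨K4, k4, h4⟩ := cu_dn (show 9 * R0 < 10 * R0 by linarith)
  exact ⟨K1 + K2 + K3 + K4, by linarith, (h3.mul h4).mono (by linarith),
    fun t1 s => ((h1.sh t1).mul (h2.sh s)).mono (by linarith)⟩

theorem Iw_cst {Φ : Fld A} (h : Φ.Is) {e : ℝ → ℝ} (he : ContDiff ℝ ∞ e) (t : ℝ) (c : ℝ → ℝ)
    (F : A) : Iw Φ (fun x => t * e x) c F = t * Iw Φ e c F := by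
  rw [Iw, h.tm_mul contDiff_const he, h.tm_cst, mul_assoc, mul_assoc, J_rl, ← mul_assoc]; rfl

namespace St
variable {Φ : Fld A} {D : Dat A} {ρ : Rd} {M a Cf rm : ℝ} {n k κ : ℕ}
  (S : St Φ D ρ M a Cf rm n k κ) (r : Ramp g θ c) {σ : Bool} {γ r1 q2 q3 : ℝ}
include S

theorem split {e c : ℝ → ℝ} (he : Te D e) (hc : Ra D ρ.R1 c) {V W : List (Fin 5)}
    (hV : V.length ≤ n) (hW : W.length = k) : Iw Φ e c (Φ.jq 1 (D.f (V ++ W))) ≤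
      2 * Iw Φ e c (Φ.jq 1 (Φ.wd V (D.f W))) + 8 * nw 1 * Iw Φ e c D.rho := by
  rw [← Iw_rl, ← Iw_rl, ← Iw_add]
  exact Iw_F S.is S.fam.box he hc fun x hx => by
    rw [val_add, S.is.B.val_mul (S.is.B.re_rl _), S.is.B.val_mul (S.is.B.re_rl _), S.is.B.val_rl,
      S.is.B.val_rl]
    exact jq_split S.is S.fam hx hV (by omega)

theorem ra_wl {c : ℝ → ℝ} {x y : ℝ} (h : Wl c x y) (e1 : ρ.rI ≤ x) (e2 : y ≤ 3 * ρ.R1) :
    Ra D ρ.R1 c ∧ ∀ t, c t ≤ D.wf ρ.R1 t :=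
  ⟨⟨h.sm, h.pos, fun t q => h.out t fun u => q ⟨(r00_lt S.fam).le.trans (e1.trans u.1),
    by linarith [u.2, S.R1]⟩⟩, fun t => by
    by_cases q : t ∈ Icc x y
    · rw [wf_one S.fam S.R1 ⟨e1.trans q.1, q.2.trans e2⟩]; exact h.one t
    · rw [h.out t q]; exact S.rf.pos t⟩

theorem wl_cc {x y : ℝ} (e1 : x ≤ 2 * ρ.R0) (e2 : 10 * ρ.R0 ≤ y) :
    Wl (fun r => cc ρ.R0 r ^ 2) x y :=
  have w := wl_bu (show 2 * ρ.R0 < 3 * ρ.R0 by linarith [S.ok.i])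
    (show 9 * ρ.R0 < 10 * ρ.R0 by linarith [S.ok.i]) e1 e2
  ⟨w.sm.pow 2, fun _ => sq_nonneg _, fun t => pow_le_one₀ (w.pos t) (w.one t), fun t q => by
    rw [cc, w.out t q, zero_pow two_ne_zero]⟩

theorem rc : Ra D ρ.R1 fun r => cc ρ.R0 r ^ 2 :=
  (S.ra_wl (S.wl_cc le_rfl le_rfl) (by linarith [S.rI_le, S.ok.i])
    (by linarith [S.ok.i, S.ok.j])).1

theorem use (k3 : 3 ≤ κ) {R0 R eH ε C0 C1 : ℝ} (hR : R ≤ ρ.R1) (e0 : 0 ≤ eH) (e1 : 0 ≤ ε)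
    (e2 : 0 ≤ C1) (H : Ce Φ σ n g θ M a γ ρ.y0 r1 ρ.q1 q2 q3 ρ.q4 R0 R eH ε C0 C1)
    {W : List (Fin 5)} (hW : W ∈ yw k) {G : A}
    (hG : Mj Φ G (Icc (D.t1 + 3 / 2) (D.t1 + κ) ×ˢ Icc (3 * R / 4) (9 * R / 4))
      fun x => eta g D.t1 (D.t1 + κ) (Φ.pr x).1 ^ 2 * Φ.B.val x (Φ.gd σ n M a γ R (D.f W)))
    {c1 c2 c3 : ℝ → ℝ} (w1 : Wl c1 r1 (3 * R0)) (w2 : Wl c2 r1 q2) (w3 : Wl c3 q3 (3 * R0))
    {V V' : List (Fin 5)} (v1 : IsY V) (v2 : V.length ≤ n) (v3 : IsY V') (v4 : V'.length ≤ n - 1) :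
    Iw Φ (fun t => eta g D.t1 (D.t1 + κ) t ^ 2) c2 (Φ.jq 1 (Φ.wd V (D.f W))) +
      Iw Φ (fun t => eta g D.t1 (D.t1 + κ) t ^ 2) c3 (Φ.jq 1 (Φ.wd V (D.f W))) +
      Iw Φ (fun t => eta g D.t1 (D.t1 + κ) t ^ 2) c1 (Φ.jq 1 (Φ.wd V' (D.f W))) +
      Iw Φ (fun t => θ (t - (D.t1 + κ)) ^ 2) c1 (Φ.jq 1 (Φ.wd V (D.f W))) ≤
      C0 * Φ.B.J G + rem Φ D ρ n k κ eH ε C1 := by
  have k4 : (3 : ℝ) ≤ κ := by exact_mod_cast k3
  have k5 : (κ : ℝ) ≤ D.K := by exact_mod_cast S.κK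
  have := (H D.t1 (D.t1 + κ) D.r00 (4 * ρ.R1) (by linarith) ((r00_lt S.fam).trans S.ok.a)
    (by linarith [S.R1]) ((prod_mono (Icc_subset_Icc (by linarith) (by linarith)) le_rfl).trans
      S.fam.box) _ (S.fam.sp W) _ S.fam.dre _ (S.hs_ok k3 hR hW hG) c1 c2 c3 w1 w2 w3 V V' v1 v2
    v3 v4).trans (S.rhs_le k3 G e0 e1 e2)
  rw [rem]
  simp only [Iw]
  linarith

include r

theorem tη : Te D fun t => eta g D.t1 (D.t1 + κ) t ^ 2 :=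
  Te.sq ((cu_eta r one_pos).choose_spec.2.2 _ _).sm fun t q => by
    have : (κ : ℝ) ≤ D.K := by exact_mod_cast S.κK
    exact ⟨by linarith [(eta_mem r q).1], by linarith [(eta_mem r q).2]⟩

omit S in
theorem eta_le (t1 : ℝ) (κ : ℕ) (t : ℝ) : eta g t1 (t1 + κ) t ^ 2 ≤ eS t1 (t1 + κ) t ^ 2 ∧
    eta g t1 (t1 + κ) t ^ 2 ≤ Z t1 (Finset.range (κ + 1)) t := by
  by_cases q : eta g t1 (t1 + κ) t = 0
  · rw [q, zero_pow two_ne_zero]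
    exact ⟨sq_nonneg _, Finset.sum_nonneg fun _ _ => bp_nonneg _⟩
  · have u := eta_mem r q
    rw [eS_one u, ZA_one ⟨by linarith [u.1], by linarith [u.2]⟩, one_pow, and_self]
    exact ((cu_eta r one_pos).choose_spec.2.2 _ _).sq_le t

/-- The word T^k up to R1. -/
theorem step_a (k3 : 3 ≤ κ) {eH ε C0 C1 : ℝ} (e0 : 0 ≤ eH) (e1 : 0 ≤ ε) (e2 : 0 ≤ C1)
    (e3 : q3 ≤ ρ.q4)
    (H : Ce Φ σ n g θ M a γ ρ.y0 r1 ρ.q1 q2 q3 ρ.q4 (5 * ρ.R0) ρ.R1 eH ε C0 C1) :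
    Iw Φ (fun t => eta g D.t1 (D.t1 + κ) t ^ 2) (fun r => cc ρ.R0 r ^ 2)
      (Φ.jq 1 (Φ.wd (List.replicate n 0) (D.f (List.replicate k 0)))) ≤
      4 * C0 * ∑ j ∈ Finset.range (κ + 1), D.GdT Φ σ n k M a γ ρ.R1 j +
        rem Φ D ρ n k κ eH ε C1 := by
  have R := S.R1
  have rG := S.ra_bu (show ρ.R1 / 2 < ρ.R1 by linarith) (show 2 * ρ.R1 < 3 * ρ.R1 by linarith)
    (by linarith [S.rI_le, S.ok.i, S.ok.j]) (by linarith)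
  have p := gd_nonneg S.is σ n M a γ R.le (D.f (List.replicate k 0))
  have := S.use k3 le_rfl e0 e1 e2 H (mem_yw.2 ⟨List.length_replicate, isY_rep k⟩)
    (mj S.is S.fam.box S.tA rG p (C := 4) (by norm_num) fun x hx => by
      rw [ZA_one ⟨by linarith [hx.1.1], by linarith [hx.1.2]⟩, one_mul, ← mul_assoc]
      refine mul_le_mul_of_nonneg_right (((cu_eta r one_pos).choose_spec.2.2 _ _).sq_le _
        |>.trans ?_) (p x)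
      have u1 := up_half (show ρ.R1 / 2 < ρ.R1 by linarith) (x := (Φ.pr x).2) (by linarith [hx.2.1])
      have u2 := dn_half (show 2 * ρ.R1 < 3 * ρ.R1 by linarith) (x := (Φ.pr x).2)
        (by linarith [hx.2.2])
      rw [bu]
      nlinarith) (wl_zero _ _) (wl_zero _ _) (S.wl_cc (by linarith [S.ok.h, S.ok.k, S.ok.i])
      (by linarith [S.ok.i])) (isY_rep n) List.length_replicate.le isY_nil (Nat.zero_le _)
  have z : ∀ e F, Iw Φ e (fun _ => 0) F = 0 := fun e F => by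
    rw [Iw, S.is.rad_cst, rl_zero, mul_zero, zero_mul, J_zero]
  rw [z, z, z, J_rl] at this
  have e : Φ.B.J _ = _ := Iw_Z S.is (D := D) (c := bu (ρ.R1 / 2) ρ.R1 (2 * ρ.R1) (3 * ρ.R1))
    (F := Φ.gd σ n M a γ ρ.R1 (D.f (List.replicate k 0))) (Finset.range (κ + 1))
  rw [e] at this
  change _ ≤ C0 * (4 * ∑ j ∈ Finset.range (κ + 1), D.GdT Φ σ n k M a γ ρ.R1 j) + _ at this
  linarith

/-- The elliptic step. -/
theorem step_b {K C : ℝ} (k1 : 1 ≤ K) (C0 : 0 ≤ C) (h1 : Cu (cc ρ.R0) K)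
    (h2 : Cu (eta g D.t1 (D.t1 + κ)) K)
    (H : ∀ φ ψ : ℝ × ℝ → ℝ, ContDiff ℝ ∞ φ → ContDiff ℝ ∞ ψ → (∀ p, 0 ≤ φ p ∧ φ p ≤ ψ p) →
      (∀ p, fderiv ℝ φ p (1, 0) ^ 2 ≤ φ p * ψ p ∧ fderiv ℝ φ p (0, 1) ^ 2 ≤ φ p * ψ p) →
      (∀ p, p ∉ Icc D.t1 (D.t1 + D.K + 2) ×ˢ Icc ρ.R0 (3 * (5 * ρ.R0)) → ψ p = 0) →
      Φ.B.J (Φ.fn φ * Φ.lv (n + k + 1) D.f) ≤
        C * (Φ.B.J (Φ.fn φ * Φ.jq 1 (D.f (List.replicate (n + k) 0))) +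
          Φ.B.J (Φ.fn ψ * Φ.lv (n + k) D.f) + Φ.B.J (Φ.fn ψ * D.rho))) :
    Iw Φ (fun t => eta g D.t1 (D.t1 + κ) t ^ 2) (fun r => cc ρ.R0 r ^ 2) (tp Φ D (n + k + 1)) ≤
      2 * C * Iw Φ (fun t => eta g D.t1 (D.t1 + κ) t ^ 2) (fun r => cc ρ.R0 r ^ 2)
        (Φ.jq 1 (Φ.wd (List.replicate n 0) (D.f (List.replicate k 0)))) +
      (C * (8 * nw 1 + 4 * K ^ 2) + 1) * Sm Φ D ρ (n + k) κ := by
  have R := S.ok.i
  have w := wl_bu (show ρ.R0 < 2 * ρ.R0 by linarith) (show 10 * ρ.R0 < 11 * ρ.R0 by linarith)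
    le_rfl le_rfl
  have rξ := (S.ra_wl w (by linarith [S.rI_le]) (by linarith [S.ok.j])).1
  have pk := pair_ok k1 h2 h1 S.tS.pos w.pos
    (fun t q => by rw [eS_one (eta_mem r q), one_pow]) fun t q => (bu_one (by linarith)
      (by linarith) (bu_mem (by linarith) (by linarith) q)).ge
  have s1 := (S.tη r).sm.comp (contDiff_fst (F := ℝ))
  have s2 := S.rc.sm.comp (contDiff_snd (E := ℝ))
  have s3 := S.tS.sm.comp (contDiff_fst (F := ℝ))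
  have s4 := w.sm.comp (contDiff_snd (E := ℝ))
  have a := H _ _ (s1.mul s2) (contDiff_const.mul (s3.mul s4)) (fun p => (pk p).1)
    (fun p => (pk p).2) fun p q => by
      rcases not_and_or.1 q with q | q
      · simp [S.tS.out _ q]
      · simp [w.out _ fun u => q ⟨u.1, by linarith [u.2]⟩]
  rw [S.is.mul _ _ s1 s2, S.is.mul _ _ contDiff_const (s3.mul s4), S.is.mul _ _ s3 s4, S.is.cst,
    mul_assoc (rl A _), mul_assoc (rl A _), J_rl, J_rl, add_assoc (Φ.B.J _), ← mul_add] at a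
  have cS : ∀ t ∈ Icc ρ.R0 (11 * ρ.R0), 1 ≤ ρ.cS t ^ 2 := fun t q => one_le_pow₀ (S.ok.cS_one
    (.inr ⟨by linarith [q.1, S.ok.h, S.ok.k], by linarith [q.2, S.ok.j]⟩))
  have lw : ∀ {c : ℝ → ℝ}, Wl c ρ.R0 (11 * ρ.R0) → ∀ t, c t ≤ ρ.cS t ^ 2 := fun {c} u t => by
    by_cases q : t ∈ Icc ρ.R0 (11 * ρ.R0)
    exacts [(u.one t).trans (cS t q), (u.out t q).trans_le (sq_nonneg _)]
  have b1 : Iw Φ _ _ _ ≤ Sm Φ D ρ (n + k) κ := Iw_w S.is S.fam.box S.tS rξ S.tS S.rS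
    (tp_nonneg S.is S.fam (n + k)) fun t x => mul_le_mul_of_nonneg_left (lw w x) (S.tS.pos t)
  have b2 : Iw Φ _ _ _ ≤ Sm Φ D ρ (n + k) κ := (Iw_F S.is S.fam.box (S.tη r) S.rc (F := D.rho)
    fun x _ => by rw [tp, val_add]; linarith [S.is.lv_nonneg x (n + k) D.f]).trans
    (Iw_w S.is S.fam.box (S.tη r) S.rc S.tS S.rS (tp_nonneg S.is S.fam (n + k)) fun t x =>
      mul_le_mul (eta_le r _ _ t).1 (lw (S.wl_cc (by linarith) (by linarith)) x) (sq_nonneg _)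
        (sq_nonneg _))
  have b3 := S.split (S.tη r) S.rc (V := List.replicate n 0) (W := List.replicate k 0)
    List.length_replicate.le List.length_replicate
  rw [← List.replicate_add] at b3
  rw [tp, Iw_add] at b1 ⊢
  have b4 := mul_le_mul_of_nonneg_left b1 (show 0 ≤ 4 * K ^ 2 by positivity)
  have b5 := mul_le_mul_of_nonneg_left b2 (show 0 ≤ 8 * nw 1 by linarith [nw_pos 1])
  have b6 := a.trans (mul_le_mul_of_nonneg_left (add_le_add (b3.trans (add_le_add le_rfl b5)) b4) C0)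
  change Iw Φ (fun t => eta g D.t1 (D.t1 + κ) t ^ 2) (fun r => cc ρ.R0 r ^ 2) _ ≤ _ at b6
  linarith

/-- All words up to 4 R0. -/
theorem step_c (k3 : 3 ≤ κ) {eH ε C0 C1 Cg Kθ : ℝ} (e0 : 0 ≤ eH) (e1 : 0 ≤ ε) (e2 : 0 ≤ C1)
    (g0 : 0 ≤ Cg) (hθ : ∀ t, θ t ^ 2 ≤ Kθ) (i1 : ρ.rI ≤ r1) (i2 : ρ.rI ≤ q3) (i3 : q2 ≤ ρ.R0)
    (hg : ∀ x, (Φ.pr x).2 ∈ Icc (3 * ρ.R0) (9 * ρ.R0) → ∀ u,
      Φ.B.val x (Φ.gd σ n M a γ (4 * ρ.R0) u) ≤ Cg * Φ.B.val x (Φ.jq (n + 1) u))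
    (H : Ce Φ σ n g θ M a γ ρ.y0 r1 ρ.q1 q2 q3 ρ.q4 ρ.R0 (4 * ρ.R0) eH ε C0 C1)
    {c1 c2 c3 : ℝ → ℝ} (w1 : Wl c1 r1 (3 * ρ.R0)) (w2 : Wl c2 r1 q2) (w3 : Wl c3 q3 (3 * ρ.R0)) :
    D.yq Φ (n + k) (fun t => c⁻¹ * eta g D.t1 (D.t1 + κ) t ^ 2) (fun r => c2 r + c3 r) +
      D.yq Φ (n + k - 1) (fun t => c⁻¹ * eta g D.t1 (D.t1 + κ) t ^ 2) c1 +
      D.yq Φ (n + k) (fun t => c⁻¹ * θ (t - (D.t1 + κ)) ^ 2) c1 ≤
      c⁻¹ * nw (n + k) * (4 * (C0 * (Cg * cw n * Iw Φ (fun t => eta g D.t1 (D.t1 + κ) t ^ 2)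
        (fun r => cc ρ.R0 r ^ 2) (tp Φ D (n + k + 1))) + rem Φ D ρ n k κ eH ε C1) +
        8 * nw 1 * (3 + Kθ) * D.rest Φ (n + k) ρ.R1 κ) := by
  have R := S.ok.i
  have R' := S.ok.j
  have n1 := S.n1
  have k4 : (3 : ℝ) ≤ κ := by exact_mod_cast k3
  have k5 : (κ : ℝ) ≤ D.K := by exact_mod_cast S.κK
  obtain ⟨a1, b1⟩ := S.ra_wl w1 i1 (by linarith)
  obtain ⟨a2, b2⟩ := S.ra_wl w2 i1 (by linarith)
  obtain ⟨a3, b3⟩ := S.ra_wl w3 i2 (by linarith)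
  have tθ : Te D fun t => θ (t - (D.t1 + κ)) ^ 2 := Te.sq (sm_sh r.st _) fun t q => by
    have u : _ ∈ Icc (-1 : ℝ) 0 := by_contra fun u => q (r.out _ u)
    exact ⟨by linarith [u.1], by linarith [u.2]⟩
  have u := fun W (hW : W ∈ yw k) V V' => S.use k3 (by linarith) e0 e1 e2 H hW
    (mj S.is S.fam.box (S.tη r) S.rc (tp_nonneg S.is S.fam (n + k + 1))
      (mul_nonneg g0 (zero_le_one.trans (cw_ge n))) fun x hx => by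
        have q : (Φ.pr x).2 ∈ Icc (3 * ρ.R0) (9 * ρ.R0) := ⟨by linarith [hx.2.1],
          by linarith [hx.2.2]⟩
        have l := (mem_yw.1 hW).1
        have j := jq_le S.is S.fam (x := x) ⟨⟨by linarith [hx.1.1], by linarith [hx.1.2]⟩,
          by linarith [q.1, r00_lt S.fam, S.rI_le], by linarith [q.2]⟩ le_rfl (W := W) (by omega)
        rw [l, show n + 1 + k = n + k + 1 by omega, ← cw] at j
        rw [cc, bu_one (by linarith) (by linarith) q, one_pow, mul_one, mul_left_comm, mul_assoc]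
        exact mul_le_mul_of_nonneg_left ((hg x q _).trans (mul_le_mul_of_nonneg_left j g0))
          (sq_nonneg _)) w1 w2 w3 (V := V) (V' := V')
  simp only [J_rl] at u
  change ∀ W ∈ yw k, ∀ V V', _ → _ → _ → _ → _ ≤ C0 * (Cg * cw n * Iw Φ _ _ _) + _ at u
  generalize C0 * (Cg * cw n * Iw Φ (fun t => eta g D.t1 (D.t1 + κ) t ^ 2)
    (fun r => cc ρ.R0 r ^ 2) (tp Φ D (n + k + 1))) + rem Φ D ρ n k κ eH ε C1 = B at u ⊢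
  have p := fun {e c : ℝ → ℝ} (he : Te D e) (hc : Ra D ρ.R1 c) (F : A) =>
    Iw_nonneg S.is S.fam.box he hc (F := Φ.jq 1 F) fun _ => S.is.jq_nonneg
  have o := fun {c : ℝ → ℝ} (hc : Ra D ρ.R1 c) (l : ∀ t, c t ≤ D.wf ρ.R1 t) =>
    mul_le_mul_of_nonneg_left (S.rho_le (n + k) (S.tη r) hc fun t x =>
      mul_le_mul (eta_le r _ _ t).2 (l x) (hc.pos x) (S.tA.pos t))
      (show 0 ≤ 8 * nw 1 by linarith [nw_pos 1])
  have K0 := (sq_nonneg _).trans (hθ 0)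
  have o' : Iw Φ (fun t => θ (t - (D.t1 + κ)) ^ 2) c1 D.rho ≤ Kθ * D.rest Φ (n + k) ρ.R1 κ := by
    refine le_trans ?_ (mul_le_mul_of_nonneg_left (S.rho_le (n + k) S.tA S.rf fun _ _ => le_rfl) K0)
    rw [← Iw_rl]
    refine Iw_le S.is S.fam.box tθ a1 S.tA S.rf fun x _ => ?_
    rw [S.is.B.val_mul (S.is.B.re_rl _), S.is.B.val_rl, ← mul_assoc]
    refine mul_le_mul_of_nonneg_right ?_ (S.fam.rpos x)
    by_cases q : θ ((Φ.pr x).1 - (D.t1 + κ)) = 0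
    · rw [q, zero_pow two_ne_zero, zero_mul]
      exact mul_nonneg (mul_nonneg (S.tA.pos _) (S.rf.pos _)) K0
    · have v : _ ∈ Icc (-1 : ℝ) 0 := by_contra fun v => q (r.out _ v)
      rw [ZA_one ⟨by linarith [v.1], by linarith [v.2]⟩, one_mul, mul_comm]
      exact mul_le_mul (b1 _) (hθ _) (sq_nonneg _) (S.rf.pos _)
  have o'' := mul_le_mul_of_nonneg_left o' (show 0 ≤ 8 * nw 1 by linarith [nw_pos 1])
  have sp : ∀ {i m} {W : List (Fin 5)}, W ∈ yw m → i + k = m → W.drop i ∈ yw k ∧ IsY (W.take i) ∧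
      (W.take i).length ≤ i := fun {i m W} hW e => by
    obtain ⟨l, y⟩ := mem_yw.1 hW
    rw [← List.take_append_drop i W] at y
    exact ⟨mem_yw.2 ⟨by rw [List.length_drop]; omega, y.right⟩, y.left, List.length_take_le _ _⟩
  have t1 : ∀ W ∈ yw (n + k), Iw Φ (fun t => eta g D.t1 (D.t1 + κ) t ^ 2) (fun r => c2 r + c3 r)
      (Φ.jq 1 (D.f W)) + Iw Φ (fun t => θ (t - (D.t1 + κ)) ^ 2) c1 (Φ.jq 1 (D.f W)) ≤
      2 * B + 8 * nw 1 * (2 + Kθ) * D.rest Φ (n + k) ρ.R1 κ := fun W hW => by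
    obtain ⟨v1, v2, v3⟩ := sp hW rfl
    have l := (mem_yw.1 v1).1
    rw [Iw_c S.is w2.sm w3.sm, ← List.take_append_drop n W]
    linarith [u _ v1 _ _ v2 v3 isY_nil (Nat.zero_le _), S.split (S.tη r) a2 v3 l,
      S.split (S.tη r) a3 v3 l, S.split tθ a1 v3 l, o a2 b2, o a3 b3,
      p (S.tη r) a1 (Φ.wd [] (D.f (W.drop n)))]
  have t2 : ∀ W ∈ yw (n + k - 1), Iw Φ (fun t => eta g D.t1 (D.t1 + κ) t ^ 2) c1
      (Φ.jq 1 (D.f W)) ≤ 2 * B + 8 * nw 1 * D.rest Φ (n + k) ρ.R1 κ := fun W hW => by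
    obtain ⟨v1, v2, v3⟩ := sp (i := n - 1) hW (by omega)
    rw [← List.take_append_drop (n - 1) W]
    linarith [u _ v1 _ _ isY_nil (Nat.zero_le _) v2 v3,
      S.split (S.tη r) a1 (v3.trans (Nat.sub_le _ _)) (mem_yw.1 v1).1, o a1 b1,
      p (S.tη r) a2 (Φ.wd [] (D.f (W.drop (n - 1)))), p (S.tη r) a3 (Φ.wd [] (D.f (W.drop (n - 1)))),
      p tθ a1 (Φ.wd [] (D.f (W.drop (n - 1))))]
  have cd : ∀ m ≤ n + k, ((yw m).card : ℝ) ≤ nw (n + k) := fun m hm => Nat.cast_le.2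
    (Finset.card_le_card fun W hW => mem_words.2 ((mem_yw.1 hW).1.trans_le hm))
  have y0 := (p (S.tη r) a1 _).trans (t2 _ (mem_yw.2 ⟨List.length_replicate, isY_rep _⟩))
  have y1 := (add_nonneg (p (S.tη r) (a2.add a3) _) (p tθ a1 _)).trans
    (t1 _ (mem_yw.2 ⟨List.length_replicate, isY_rep _⟩))
  have s1 := (Finset.sum_le_card_nsmul _ _ _ t1).trans_eq (nsmul_eq_mul _ _) |>.trans
    (mul_le_mul_of_nonneg_right (cd _ le_rfl) y1)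
  have s2 := (Finset.sum_le_card_nsmul _ _ _ t2).trans_eq (nsmul_eq_mul _ _) |>.trans
    (mul_le_mul_of_nonneg_right (cd _ (Nat.sub_le _ _)) y0)
  have e : ∀ m {e : ℝ → ℝ} c', ContDiff ℝ ∞ e → D.yq Φ m (fun t => c⁻¹ * e t) c' =
      c⁻¹ * ∑ W ∈ yw m, Iw Φ e c' (Φ.jq 1 (D.f W)) := fun m e c' he => by
    rw [Finset.mul_sum]
    exact Finset.sum_congr rfl fun W _ => Iw_cst S.is he _ _ _
  rw [Finset.sum_add_distrib] at s1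
  rw [e _ _ (S.tη r).sm, e _ _ (S.tη r).sm, e _ _ tθ.sm, ← mul_add, ← mul_add, mul_assoc]
  exact mul_le_mul_of_nonneg_left (by linarith) (inv_pos.2 r.pos).le

end St

end Vale.Agent.P354PT
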